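import Mathlib

open Finset Matrix BigOperators

namespace Vale.Agent.Lib.P344

/-- Expansion of the determinant of a product along all row selections. -/
theorem det_mul_expand {m n : ℕ} (A : Matrix (Fin m) (Fin n) ℂ) (B : Matrix (Fin n) (Fin m) ℂ) :
    (A * B).det = ∑ r : Fin m → Fin n, (∏ i, A i (r i)) * (B.submatrix r id).det := by
  have h1 : (A * B).det = Matrix.detRowAlternating (A * B) := rfl
  have h2 : (A * B) = fun i => ∑ k, A i k • B k := by
    ext i j
    simp [Matrix.mul_apply, Finset.sum_apply]
  rw [h1, h2]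
  have h3 := (Matrix.detRowAlternating (R := ℂ) (n := Fin m)).toMultilinearMap.map_sum
    (fun i k => A i k • B k)
  simp only [AlternatingMap.coe_multilinearMap] at h3
  rw [h3]
  refine Finset.sum_congr rfl fun r _ => ?_
  have h4 := (Matrix.detRowAlternating (R := ℂ) (n := Fin m)).toMultilinearMap.map_smul_univ
    (fun i => A i (r i)) (fun i => B (r i))
  simp only [AlternatingMap.coe_multilinearMap] at h4
  rw [h4]
  simp only [smul_eq_mul]
  rfl

/-- Cauchy-Binet in symmetrised form: the sum runs over all functions. -/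
theorem cauchy_binet {m n : ℕ} (A : Matrix (Fin m) (Fin n) ℂ) (B : Matrix (Fin n) (Fin m) ℂ) :
    (m.factorial : ℂ) * (A * B).det =
      ∑ r : Fin m → Fin n, (A.submatrix id r).det * (B.submatrix r id).det := by
  classical
  have key : ∀ σ : Equiv.Perm (Fin m), (A * B).det =
      ∑ r : Fin m → Fin n, (∏ i, A i (r (σ i))) *
        (((Equiv.Perm.sign σ : ℤ) : ℂ) * (B.submatrix r id).det) := by
    intro σ
    rw [det_mul_expand]
    rw [← Equiv.sum_comp (Equiv.arrowCongr σ.symm (Equiv.refl (Fin n)))]
    refine Finset.sum_congr rfl fun r _ => ?_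
    have hfun : (Equiv.arrowCongr σ.symm (Equiv.refl (Fin n))) r = r ∘ σ := by
      ext i
      simp [Equiv.arrowCongr]
    rw [hfun]
    congr 1
    have h := Matrix.det_permute σ (B.submatrix r id)
    have h2 : (B.submatrix r id).submatrix σ id = B.submatrix (r ∘ σ) id := by
      ext i j
      rfl
    rw [h2] at h
    simpa using h
  have hdet : ∀ r : Fin m → Fin n, (A.submatrix id r).det =
      ∑ σ : Equiv.Perm (Fin m), ((Equiv.Perm.sign σ : ℤ) : ℂ) * ∏ i, A i (r (σ i)) := by
    intro r
    rw [← Matrix.det_transpose, Matrix.det_apply']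
    refine Finset.sum_congr rfl fun σ _ => ?_
    simp [Matrix.transpose_apply, Matrix.submatrix_apply]
  calc (m.factorial : ℂ) * (A * B).det
      = ∑ σ : Equiv.Perm (Fin m), (A * B).det := by
        rw [Finset.sum_const, Finset.card_univ, Fintype.card_perm, Fintype.card_fin, nsmul_eq_mul]
    _ = ∑ σ : Equiv.Perm (Fin m), ∑ r : Fin m → Fin n, (∏ i, A i (r (σ i))) *
          (((Equiv.Perm.sign σ : ℤ) : ℂ) * (B.submatrix r id).det) :=
        Finset.sum_congr rfl fun σ _ => key σ
    _ = ∑ r : Fin m → Fin n, ∑ σ : Equiv.Perm (Fin m), (∏ i, A i (r (σ i))) *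
          (((Equiv.Perm.sign σ : ℤ) : ℂ) * (B.submatrix r id).det) := Finset.sum_comm
    _ = ∑ r : Fin m → Fin n, (A.submatrix id r).det * (B.submatrix r id).det := by
        refine Finset.sum_congr rfl fun r _ => ?_
        rw [hdet, Finset.sum_mul]
        refine Finset.sum_congr rfl fun σ _ => ?_
        ring

end Vale.Agent.Lib.P344
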