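import Vale.Agent.Lib.P344.Defs

namespace Vale.Agent.Lib.P344

/-- The cost of a gate in the coefficient form of the bound: an addition or subtraction costs `1`,
a scalar gate costs the base-two logarithm of `max 1 ‖c‖`. -/
noncomputable def Gate.coefCost : Gate → ℝ
  | .add _ _ => 1
  | .sub _ _ => 1
  | .smul c _ => Real.logb 2 (max 1 ‖c‖)

end Vale.Agent.Lib.P344
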