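import Vale.Agent.Lib.P344.Master
import Vale.Agent.Lib.P344.DefsCoef

open Finset Matrix BigOperators

namespace Vale.Agent.Lib.P344

variable {n : ℕ}

theorem logb_max_weightCost_le (g : Gate) (T : ℕ → Fin n → ℂ) (p : ℕ) :
    Real.logb 2 (max 1 (g.weightCost T (fun _ => 1) p)) ≤ g.coefCost := by
  have hadd : ∀ (A B : Prop) [Decidable A] [Decidable B], max (1 : ℝ) ((if A then 0 else 1 / 1) + (if B then 0 else 1 / 1)) ≤ 2 := by
    intro A B _ _
    refine max_le (by norm_num) ?_
    split_ifs <;> norm_num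
  have hlog2 : ∀ y : ℝ, 1 ≤ y → y ≤ 2 → Real.logb 2 y ≤ 1 := by
    intro y h1 h2
    calc Real.logb 2 y ≤ Real.logb 2 2 :=
          Real.logb_le_logb_of_le (by norm_num) (by linarith) h2
      _ = 1 := Real.logb_self_eq_one (by norm_num)
  cases g with
  | add u v =>
    simp only [Gate.weightCost, Gate.coefCost]
    by_cases h0 : T u + T v = 0
    · simp [h0]
    · rw [if_neg h0]
      exact hlog2 _ (le_max_left _ _) (hadd _ _)
  | sub u v =>
    simp only [Gate.weightCost, Gate.coefCost]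
    by_cases h0 : T u - T v = 0
    · simp [h0]
    · rw [if_neg h0]
      exact hlog2 _ (le_max_left _ _) (hadd _ _)
  | smul c u =>
    simp only [Gate.weightCost, Gate.coefCost]
    split_ifs with h0
    · have h1 : max (1 : ℝ) 0 = 1 := by norm_num
      rw [h1, Real.logb_one]
      exact Real.logb_nonneg (by norm_num) (le_max_left _ _)
    · simp

theorem coef_main {ζ : ℂ} (hn : 2 ≤ n) (hζ : IsPrimitiveRoot ζ n)
    (G : ℕ) (gate : ℕ → Gate) (out : Fin n → ℕ)
    (hcomp : ∀ (x : Fin n → ℂ) (j : Fin n),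
      table n gate x G (out j) = ∑ k : Fin n, ζ ^ ((j : ℕ) * (k : ℕ)) * x k)
    (S : Finset ℕ) (hS : S.card ≤ n) :
    ((n : ℝ) - S.card) / 2 * Real.logb 2 n - Real.logb 2 (n.choose S.card) ≤
      ∑ t ∈ Finset.range G \ S, (gate t).coefCost := by
  have h := master_log hn hζ (fun _ => 1) (fun _ => one_ne_zero) G gate out
    (by intro x j; rw [hcomp x j, one_mul]) (fun _ => 1) (fun _ => one_pos) (fun _ _ => rfl) S hS
  refine h.trans ?_
  have h2 : ∑ j : Fin n, Real.logb 2 (max 1 (1 / ((1 : ℝ) * ‖(1 : ℂ)‖))) = 0 := by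
    simp
  rw [h2, add_zero]
  exact Finset.sum_le_sum fun t _ => logb_max_weightCost_le _ _ _

end Vale.Agent.Lib.P344
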