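import Mathlib

namespace Vale.Agent.Lib.P344

/-- A gate of a linear circuit. Its arguments are positions in the table of values computed so far:
positions below `n` hold the inputs, position `n + t` holds the value of gate number `t`, and every
position not filled yet holds the constant `0`. -/
inductive Gate where
  | add (u v : ℕ) : Gate
  | sub (u v : ℕ) : Gate
  | smul (c : ℂ) (u : ℕ) : Gate

/-- The value of a gate, given the table of values computed so far. -/
def Gate.eval {M : Type*} [AddCommGroup M] [Module ℂ M] : Gate → (ℕ → M) → M
  | .add u v, T => T u + T v
  | .sub u v, T => T u - T v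
  | .smul c u, T => c • T u

/-- `table n gate x t` is the table of values after running the gates number `0, …, t - 1` on the
inputs `x`. -/
def table {M : Type*} [AddCommGroup M] [Module ℂ M] (n : ℕ) (gate : ℕ → Gate) (x : Fin n → M) :
    ℕ → ℕ → M
  | 0 => fun i => if h : i < n then x ⟨i, h⟩ else 0
  | t + 1 => Function.update (table n gate x t) (n + t) ((gate t).eval (table n gate x t))

/-- The linear forms computed so far: the table obtained when the inputs are the coordinate forms,
so that `forms n gate t i k` is the coefficient of the input `x k` in the value at position `i`. -/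
noncomputable def forms (n : ℕ) (gate : ℕ → Gate) : ℕ → ℕ → (Fin n → ℂ) :=
  table n gate (fun k => Pi.single k 1)

/-- The condition number of a gate, measured with the sup norm of the coefficient vectors (the norm
of `Fin n → ℂ` in Mathlib): for an addition or subtraction with operands `a`, `b` and nonzero result
`r` it is `(‖a‖ + ‖b‖) / ‖r‖`; in all other cases it is `1`. -/
noncomputable def Gate.cond {n : ℕ} (g : Gate) (T : ℕ → Fin n → ℂ) : ℝ :=
  match g with
  | .add u v => if T u + T v = 0 then 1 else (‖T u‖ + ‖T v‖) / ‖T u + T v‖
  | .sub u v => if T u - T v = 0 then 1 else (‖T u‖ + ‖T v‖) / ‖T u - T v‖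
  | .smul _ _ => 1

end Vale.Agent.Lib.P344
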