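import Vale.Agent.Lib.P344.Defs

namespace Vale.Agent.Lib.P344

/-- The largest path gain, after `t` gates, from an input to each table position, in the circuit
where the gates in `S` are removed: inputs have gain `1`, a gate in `S` and an unfilled position have
gain `0`, an addition or subtraction takes the maximum of the gains of its operands, and a scalar
gate `c • u` multiplies the gain of `u` by `‖c‖`. Equivalently, it is the largest product of the
moduli of the scalars along a directed path from an input that avoids `S`. -/
noncomputable def gain (n : ℕ) (gate : ℕ → Gate) (S : Finset ℕ) : ℕ → ℕ → ℝ
  | 0 => fun i => if i < n then 1 else 0
  | t + 1 => Function.update (gain n gate S t) (n + t)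
      (if t ∈ S then 0 else
        match gate t with
        | .add u v => max (gain n gate S t u) (gain n gate S t v)
        | .sub u v => max (gain n gate S t u) (gain n gate S t v)
        | .smul c u => ‖c‖ * gain n gate S t u)

/-- Whether a gate is an addition or a subtraction. -/
def Gate.isAdditive : Gate → Bool
  | .add _ _ => true
  | .sub _ _ => true
  | .smul _ _ => false

end Vale.Agent.Lib.P344
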