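import Vale.Agent.Lib.P344.Defs

namespace Vale.Agent.Lib.P344

/-- The cost of a gate under a weight function `w` on table positions, for the gate placed at
position `p`, given the coefficient vectors `T` of the values computed so far. An operand with zero
coefficient vector contributes nothing, and a gate with zero result costs nothing. -/
noncomputable def Gate.weightCost {n : ℕ} (g : Gate) (T : ℕ → Fin n → ℂ) (w : ℕ → ℝ) (p : ℕ) : ℝ :=
  match g with
  | .add u v =>
    if T u + T v = 0 then 0
    else (if T u = 0 then 0 else w p / w u) + (if T v = 0 then 0 else w p / w v)
  | .sub u v =>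
    if T u - T v = 0 then 0
    else (if T u = 0 then 0 else w p / w u) + (if T v = 0 then 0 else w p / w v)
  | .smul c u => if c • T u = 0 then 0 else ‖c‖ * (w p / w u)

end Vale.Agent.Lib.P344
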