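import Vale.Agent.Lib.P344.Main
import Vale.Agent.Lib.P344.DefsGain

open Finset Matrix BigOperators

namespace Vale.Agent.Lib.P344

variable {n : ℕ}

/-- The general final step: rows that agree with phases times `F_n` on the common kernel of the
forms in `S`. -/
theorem final_bound {ζ : ℂ} (hn : 0 < n) (hζ : IsPrimitiveRoot ζ n) (S : Finset ℕ) (hS : S.card ≤ n)
    (g : ℕ → Fin n → ℂ) (N : Matrix (Fin n) (Fin n) ℂ) (φ : Fin n → ℂ)
    (hφ : ∀ j, star (φ j) * φ j = 1)
    (hN : ∀ x : Fin n → ℂ, (∀ i ∈ S, g i ⬝ᵥ x = 0) → ∀ j,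
      N j ⬝ᵥ x = φ j * ∑ k : Fin n, ζ ^ ((j : ℕ) * (k : ℕ)) * x k)
    (B : ℝ) (hB0 : 0 ≤ B)
    (hB : ∀ I J : Fin (n - S.card) → Fin n, ‖(N.submatrix I J).det‖ ≤ B) :
    (n : ℝ) ^ (n - S.card) ≤ (B * n.choose (n - S.card)) ^ 2 := by
  classical
  obtain ⟨P, hP1, hP2⟩ := exists_orthonormal_kernel S g hS
  have hNP : N * P = Matrix.diagonal φ * (fourier n ζ * P) := by
    ext j a
    have h := hN (fun k => P k a) (fun i hi => hP2 i hi a) j
    rw [Matrix.diagonal_mul]
    have h5 : (N * P) j a = N j ⬝ᵥ (fun k => P k a) := by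
      simp [Matrix.mul_apply, dotProduct]
    have h6 : (fourier n ζ * P) j a = ∑ k : Fin n, ζ ^ ((j : ℕ) * (k : ℕ)) * P k a := by
      simp [Matrix.mul_apply, fourier]
    rw [h5, h6, h]
  have hQ : (N * P)ᴴ * (N * P) =
      ((n : ℝ) : ℂ) • (1 : Matrix (Fin (n - S.card)) (Fin (n - S.card)) ℂ) := by
    rw [hNP, Matrix.conjTranspose_mul, Matrix.diagonal_conjTranspose]
    have hdiag : Matrix.diagonal (star φ) * Matrix.diagonal φ = (1 : Matrix (Fin n) (Fin n) ℂ) := by
      rw [Matrix.diagonal_mul_diagonal, ← Matrix.diagonal_one]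
      congr 1
      ext j
      exact hφ j
    calc ((fourier n ζ * P)ᴴ * Matrix.diagonal (star φ)) * (Matrix.diagonal φ * (fourier n ζ * P))
        = (fourier n ζ * P)ᴴ * (Matrix.diagonal (star φ) * Matrix.diagonal φ) * (fourier n ζ * P) := by
          simp only [Matrix.mul_assoc]
      _ = Pᴴ * ((fourier n ζ)ᴴ * fourier n ζ) * P := by
          rw [hdiag, Matrix.mul_one, Matrix.conjTranspose_mul]
          simp only [Matrix.mul_assoc]
      _ = ((n : ℝ) : ℂ) • (1 : Matrix (Fin (n - S.card)) (Fin (n - S.card)) ℂ) := by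
          rw [fourier_conj_mul hζ hn]
          simp only [Matrix.mul_smul, Matrix.smul_mul, Matrix.mul_one, hP1]
          simp
  exact minor_lower_bound N P hP1 n hQ B hB0 hB

theorem gain_nonneg (gate : ℕ → Gate) (S : Finset ℕ) (t i : ℕ) : 0 ≤ gain n gate S t i := by
  induction t generalizing i with
  | zero =>
    simp only [gain]
    split_ifs <;> norm_num
  | succ t ih =>
    simp only [gain]
    by_cases hi : i = n + t
    · subst hi
      rw [Function.update_self]
      split_ifs
      · exact le_rfl
      · cases gate t with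
        | add u v => exact le_max_of_le_left (ih u)
        | sub u v => exact le_max_of_le_left (ih u)
        | smul c u => exact mul_nonneg (norm_nonneg _) (ih u)
    · rw [Function.update_of_ne hi]
      exact ih i

/-- The rows normalised by the path gains. -/
theorem exists_rows_gain (gate : ℕ → Gate) (G : ℕ) (S : Finset ℕ) (t : ℕ) (ht : t ≤ G) :
    ∃ B : ℕ → Fin n → ℂ,
      (∀ x : Fin n → ℂ, (∀ g ∈ S, g < G → (gate g).eval (forms n gate g) ⬝ᵥ x = 0) →
        ∀ i, ((gain n gate S t i : ℝ) : ℂ) * (B i ⬝ᵥ x) = forms n gate t i ⬝ᵥ x) ∧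
      MinorsLE B (∏ s ∈ Finset.range t \ S, if (gate s).isAdditive then (2 : ℝ) else 1) := by
  classical
  induction t with
  | zero =>
    refine ⟨forms n gate 0, ?_, ?_⟩
    · intro x _ i
      simp only [forms, table, gain]
      split_ifs with h
      · simp
      · simp
    · have := @minors_base n
      simpa [forms, table] using this
  | succ t ih =>
    obtain ⟨B, hB1, hB2⟩ := ih (Nat.le_of_succ_le ht)
    have htG : t < G := Nat.lt_of_succ_le ht
    set P := ∏ s ∈ Finset.range t \ S, (if (gate s).isAdditive then (2 : ℝ) else 1) with hP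
    have hP1 : 0 ≤ P := Finset.prod_nonneg fun s _ => by split_ifs <;> norm_num
    have hgainsucc : ∀ γ : ℝ, (if t ∈ S then (0:ℝ) else
        match gate t with
        | .add u v => max (gain n gate S t u) (gain n gate S t v)
        | .sub u v => max (gain n gate S t u) (gain n gate S t v)
        | .smul c u => ‖c‖ * gain n gate S t u) = γ →
        gain n gate S (t + 1) = Function.update (gain n gate S t) (n + t) γ := by
      intro γ h
      rw [← h]
      rfl
    have hold : ∀ (γ : ℝ) (new : Fin n → ℂ) (x : Fin n → ℂ),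
        gain n gate S (t + 1) = Function.update (gain n gate S t) (n + t) γ →
        (∀ g ∈ S, g < G → (gate g).eval (forms n gate g) ⬝ᵥ x = 0) →
        (γ : ℂ) * (new ⬝ᵥ x) = (gate t).eval (forms n gate t) ⬝ᵥ x →
        ∀ i, ((gain n gate S (t + 1) i : ℝ) : ℂ) * (Function.update B (n + t) new i ⬝ᵥ x) =
          forms n gate (t + 1) i ⬝ᵥ x := by
      intro γ new x hγ hx hnew i
      rw [forms_succ, hγ]
      by_cases hi : i = n + t
      · subst hi
        simpa using hnew
      · rw [Function.update_of_ne hi, Function.update_of_ne hi, Function.update_of_ne hi]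
        exact hB1 x hx i
    by_cases htS : t ∈ S
    · have hprod : ∏ s ∈ Finset.range (t + 1) \ S, (if (gate s).isAdditive then (2 : ℝ) else 1) = P := by
        rw [Finset.range_add_one, Finset.insert_sdiff_of_mem _ htS]
      rw [hprod]
      refine ⟨Function.update B (n + t) 0, ?_, ?_⟩
      · intro x hx
        refine hold 0 0 x (hgainsucc 0 (if_pos htS)) hx ?_
        rw [hx t htS htG]
        simp
      · have := minors_update_zero hB2 hP1 (le_refl (1:ℝ)) (n + t)
        simpa using this
    · have hprod : ∏ s ∈ Finset.range (t + 1) \ S, (if (gate s).isAdditive then (2 : ℝ) else 1) =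
          (if (gate t).isAdditive then (2 : ℝ) else 1) * P := by
        rw [Finset.range_add_one, Finset.insert_sdiff_of_notMem _ htS, Finset.prod_insert]
        simp
      rw [hprod]
      set T := forms n gate t with hT
      set γ₀ := gain n gate S t with hγ₀
      cases hg : gate t with
      | add u v =>
        have hw' : (gate t).eval T = T u + T v := by rw [hg]; rfl
        have hγ : gain n gate S (t + 1) = Function.update γ₀ (n + t) (max (γ₀ u) (γ₀ v)) :=
          hgainsucc _ (by rw [if_neg htS, hg])
        by_cases h0 : max (γ₀ u) (γ₀ v) = 0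
        · have hu : γ₀ u = 0 := le_antisymm (h0 ▸ le_max_left _ _) (gain_nonneg _ _ _ _)
          have hv : γ₀ v = 0 := le_antisymm (h0 ▸ le_max_right _ _) (gain_nonneg _ _ _ _)
          refine ⟨Function.update B (n + t) 0, ?_, ?_⟩
          · intro x hx
            refine hold _ 0 x hγ hx ?_
            rw [hw', add_dotProduct, ← hB1 x hx u, ← hB1 x hx v, hu, hv]
            simp
          · exact minors_update_zero hB2 hP1 (by simp [Gate.isAdditive]) _
        · have hγpos : 0 < max (γ₀ u) (γ₀ v) :=
            lt_of_le_of_ne (le_max_of_le_left (gain_nonneg _ _ _ _)) (Ne.symm h0)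
          set Γ := max (γ₀ u) (γ₀ v) with hΓ
          have hΓne : ((Γ : ℝ) : ℂ) ≠ 0 := by exact_mod_cast hγpos.ne'
          set a : ℂ := ((γ₀ u / Γ : ℝ) : ℂ) with ha
          set b : ℂ := ((γ₀ v / Γ : ℝ) : ℂ) with hb
          refine ⟨Function.update B (n + t) (a • B u + b • B v), ?_, ?_⟩
          · intro x hx
            refine hold _ _ x hγ hx ?_
            rw [hw', add_dotProduct, smul_dotProduct, smul_dotProduct, add_dotProduct,
              ← hB1 x hx u, ← hB1 x hx v, ha, hb]
            simp only [smul_eq_mul]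
            push_cast
            field_simp
          · have h2 : (if (Gate.add u v).isAdditive = true then (2 : ℝ) else 1) = 2 := by
              simp [Gate.isAdditive]
            rw [h2]
            refine minors_update_add hB2 hP1 (by norm_num) _ _ _ _ _ ?_
            rw [ha, hb, Complex.norm_real, Complex.norm_real,
              Real.norm_of_nonneg (div_nonneg (gain_nonneg _ _ _ _) hγpos.le),
              Real.norm_of_nonneg (div_nonneg (gain_nonneg _ _ _ _) hγpos.le)]
            have h1 : γ₀ u / Γ ≤ 1 := (div_le_one hγpos).mpr (le_max_left _ _)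
            have h2 : γ₀ v / Γ ≤ 1 := (div_le_one hγpos).mpr (le_max_right _ _)
            linarith
      | sub u v =>
        have hw' : (gate t).eval T = T u - T v := by rw [hg]; rfl
        have hγ : gain n gate S (t + 1) = Function.update γ₀ (n + t) (max (γ₀ u) (γ₀ v)) :=
          hgainsucc _ (by rw [if_neg htS, hg])
        by_cases h0 : max (γ₀ u) (γ₀ v) = 0
        · have hu : γ₀ u = 0 := le_antisymm (h0 ▸ le_max_left _ _) (gain_nonneg _ _ _ _)
          have hv : γ₀ v = 0 := le_antisymm (h0 ▸ le_max_right _ _) (gain_nonneg _ _ _ _)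
          refine ⟨Function.update B (n + t) 0, ?_, ?_⟩
          · intro x hx
            refine hold _ 0 x hγ hx ?_
            rw [hw', sub_dotProduct, ← hB1 x hx u, ← hB1 x hx v, hu, hv]
            simp
          · exact minors_update_zero hB2 hP1 (by simp [Gate.isAdditive]) _
        · have hγpos : 0 < max (γ₀ u) (γ₀ v) :=
            lt_of_le_of_ne (le_max_of_le_left (gain_nonneg _ _ _ _)) (Ne.symm h0)
          set Γ := max (γ₀ u) (γ₀ v) with hΓ
          have hΓne : ((Γ : ℝ) : ℂ) ≠ 0 := by exact_mod_cast hγpos.ne'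
          set a : ℂ := ((γ₀ u / Γ : ℝ) : ℂ) with ha
          set b : ℂ := -((γ₀ v / Γ : ℝ) : ℂ) with hb
          refine ⟨Function.update B (n + t) (a • B u + b • B v), ?_, ?_⟩
          · intro x hx
            refine hold _ _ x hγ hx ?_
            rw [hw', add_dotProduct, smul_dotProduct, smul_dotProduct, sub_dotProduct,
              ← hB1 x hx u, ← hB1 x hx v, ha, hb]
            simp only [smul_eq_mul]
            push_cast
            field_simp
            ring
          · have h2 : (if (Gate.sub u v).isAdditive = true then (2 : ℝ) else 1) = 2 := by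
              simp [Gate.isAdditive]
            rw [h2]
            refine minors_update_add hB2 hP1 (by norm_num) _ _ _ _ _ ?_
            rw [ha, hb, norm_neg, Complex.norm_real, Complex.norm_real,
              Real.norm_of_nonneg (div_nonneg (gain_nonneg _ _ _ _) hγpos.le),
              Real.norm_of_nonneg (div_nonneg (gain_nonneg _ _ _ _) hγpos.le)]
            have h1 : γ₀ u / Γ ≤ 1 := (div_le_one hγpos).mpr (le_max_left _ _)
            have h2 : γ₀ v / Γ ≤ 1 := (div_le_one hγpos).mpr (le_max_right _ _)
            linarith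
      | smul c u =>
        have hw' : (gate t).eval T = c • T u := by rw [hg]; rfl
        have hγ : gain n gate S (t + 1) = Function.update γ₀ (n + t) (‖c‖ * γ₀ u) :=
          hgainsucc _ (by rw [if_neg htS, hg])
        have h1' : (if (Gate.smul c u).isAdditive = true then (2 : ℝ) else 1) = 1 := by
          simp [Gate.isAdditive]
        rw [h1']
        by_cases h0 : ‖c‖ * γ₀ u = 0
        · refine ⟨Function.update B (n + t) 0, ?_, ?_⟩
          · intro x hx
            refine hold _ 0 x hγ hx ?_
            rw [hw', smul_dotProduct, ← hB1 x hx u]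
            rcases mul_eq_zero.mp h0 with h | h
            · have hc0 : c = 0 := norm_eq_zero.mp h
              simp [hc0]
            · simp [h]
          · exact minors_update_zero hB2 hP1 le_rfl _
        · have hc : c ≠ 0 := by
            intro hc
            apply h0
            simp [hc]
          have hcn : 0 < ‖c‖ := norm_pos_iff.mpr hc
          have hcne : ((‖c‖ : ℝ) : ℂ) ≠ 0 := by exact_mod_cast hcn.ne'
          set a : ℂ := c / ((‖c‖ : ℝ) : ℂ) with ha
          refine ⟨Function.update B (n + t) (a • B u + (0 : ℂ) • B u), ?_, ?_⟩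
          · intro x hx
            refine hold _ _ x hγ hx ?_
            rw [hw', add_dotProduct, smul_dotProduct, smul_dotProduct, smul_dotProduct,
              ← hB1 x hx u, ha]
            simp only [smul_eq_mul]
            push_cast
            field_simp
            ring
          · refine minors_update_add hB2 hP1 le_rfl _ _ _ _ _ ?_
            rw [ha, norm_zero, add_zero, norm_div, Complex.norm_real, norm_norm, div_self hcn.ne']

/-- The path gain form of the bound. -/
theorem gain_prod {ζ : ℂ} (hn : 0 < n) (hζ : IsPrimitiveRoot ζ n) (c : Fin n → ℂ)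
    (hc : ∀ j, c j ≠ 0) (G : ℕ) (gate : ℕ → Gate) (out : Fin n → ℕ)
    (hcomp : ∀ (x : Fin n → ℂ) (j : Fin n),
      table n gate x G (out j) = c j * ∑ k : Fin n, ζ ^ ((j : ℕ) * (k : ℕ)) * x k)
    (S : Finset ℕ) (hS : S.card ≤ n) :
    (n : ℝ) ^ (n - S.card) ≤
      (((∏ j : Fin n, max 1 (gain n gate S G (out j) / ‖c j‖)) *
        ∏ s ∈ Finset.range G \ S, (if (gate s).isAdditive then (2 : ℝ) else 1)) *
        (n.choose (n - S.card))) ^ 2 := by
  classical
  obtain ⟨B, hB1, hB2⟩ := exists_rows_gain (n := n) gate G S G le_rfl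
  set γ : Fin n → ℝ := fun j => gain n gate S G (out j) / ‖c j‖ with hγ
  have hγnn : ∀ j, 0 ≤ γ j := fun j => div_nonneg (gain_nonneg _ _ _ _) (norm_nonneg _)
  have hforms : ∀ j k, forms n gate G (out j) k = c j * ζ ^ ((j : ℕ) * (k : ℕ)) := by
    intro j k
    have h := hcomp (Pi.single k 1) j
    rw [table_eq_dot] at h
    have h2 : forms n gate G (out j) ⬝ᵥ (Pi.single k 1) = forms n gate G (out j) k := by
      simp
    rw [h2] at h
    rw [h]
    congr 1
    rw [Finset.sum_eq_single k]
    · simp
    · intro b _ hb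
      simp [hb]
    · simp
  let φ : Fin n → ℂ := fun j => c j / ((‖c j‖ : ℝ) : ℂ)
  have hφ : ∀ j, star (φ j) * φ j = 1 := by
    intro j
    simp only [φ, RCLike.star_def]
    rw [mul_comm, Complex.mul_conj']
    rw [norm_div, Complex.norm_real, norm_norm, div_self (norm_pos_iff.mpr (hc j)).ne']
    simp
  set Q1 := ∏ j : Fin n, max 1 (γ j) with hQ1
  set Q2 := ∏ s ∈ Finset.range G \ S, (if (gate s).isAdditive then (2 : ℝ) else 1) with hQ2
  have hQ1nn : 0 ≤ Q1 := Finset.prod_nonneg fun j _ => le_trans zero_le_one (le_max_left _ _)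
  have hQ2nn : 0 ≤ Q2 := Finset.prod_nonneg fun j _ => by split_ifs <;> norm_num
  refine final_bound hn hζ S hS (fun g => if g < G then (gate g).eval (forms n gate g) else 0)
    (Matrix.of fun j k => ((γ j : ℝ) : ℂ) * B (out j) k) φ hφ ?_ _ (mul_nonneg hQ1nn hQ2nn) ?_
  · intro x hx j
    have hx' : ∀ g ∈ S, g < G → (gate g).eval (forms n gate g) ⬝ᵥ x = 0 := by
      intro g hg hgG
      have := hx g hg
      simpa [hgG] using this
    have h := hB1 x hx' (out j)
    have h3 : forms n gate G (out j) ⬝ᵥ x = c j * ∑ k : Fin n, ζ ^ ((j : ℕ) * (k : ℕ)) * x k := by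
      simp only [dotProduct, hforms, Finset.mul_sum, mul_assoc]
    rw [h3] at h
    have h0 : ((‖c j‖ : ℝ) : ℂ) ≠ 0 := by
      exact_mod_cast (norm_pos_iff.mpr (hc j)).ne'
    have h7 : (Matrix.of fun j k => ((γ j : ℝ) : ℂ) * B (out j) k) j ⬝ᵥ x =
        ((γ j : ℝ) : ℂ) * (B (out j) ⬝ᵥ x) := by
      simp [dotProduct, Finset.mul_sum, mul_assoc]
    rw [h7]
    simp only [hγ, φ]
    push_cast
    field_simp
    exact h
  · intro I J
    by_cases hI : Function.Injective I
    · have hdet : ((Matrix.of fun j k => ((γ j : ℝ) : ℂ) * B (out j) k).submatrix I J).det =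
          (∏ a, ((γ (I a) : ℝ) : ℂ)) * (Matrix.of fun a b => B (out (I a)) (J b)).det := by
        have : (Matrix.of fun j k => ((γ j : ℝ) : ℂ) * B (out j) k).submatrix I J =
            Matrix.of fun a b => ((γ (I a) : ℝ) : ℂ) * B (out (I a)) (J b) := by
          ext a b
          simp [Matrix.submatrix_apply]
        rw [this]
        exact Matrix.det_mul_column _ _
      rw [hdet, norm_mul, norm_prod]
      have h1 := hB2 _ (fun a => out (I a)) J
      have h2 : ∏ a, ‖((γ (I a) : ℝ) : ℂ)‖ ≤ Q1 := by
        calc ∏ a, ‖((γ (I a) : ℝ) : ℂ)‖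
            ≤ ∏ a, max 1 (γ (I a)) := by
              refine Finset.prod_le_prod (fun a _ => norm_nonneg _) fun a _ => ?_
              rw [Complex.norm_real, Real.norm_of_nonneg (hγnn _)]
              exact le_max_right _ _
          _ = ∏ j ∈ Finset.univ.image I, max 1 (γ j) := by
              rw [Finset.prod_image fun a _ b _ h => hI h]
          _ ≤ Q1 := by
              rw [hQ1]
              have hsub : Finset.univ.image I ⊆ (Finset.univ : Finset (Fin n)) := Finset.subset_univ _
              rw [← Finset.prod_sdiff hsub]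
              refine le_mul_of_one_le_left (Finset.prod_nonneg fun j _ => le_trans zero_le_one (le_max_left _ _)) ?_
              exact Finset.prod_induction _ (fun x => 1 ≤ x)
                (fun a b ha hb => one_le_mul_of_one_le_of_one_le ha hb) le_rfl
                (fun s _ => le_max_left _ _)
      exact mul_le_mul h2 h1 (norm_nonneg _) hQ1nn
    · simp only [Function.Injective, not_forall] at hI
      obtain ⟨a, b, hab, hne⟩ := hI
      have : ((Matrix.of fun j k => ((γ j : ℝ) : ℂ) * B (out j) k).submatrix I J).det = 0 :=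
        Matrix.det_zero_of_row_eq (i := a) (j := b) hne (by ext k; simp [Matrix.submatrix_apply, hab])
      rw [this, norm_zero]
      exact mul_nonneg hQ1nn hQ2nn

/-- The path gain form of the bound, in logarithmic form. -/
theorem gain_log {ζ : ℂ} (hn : 2 ≤ n) (hζ : IsPrimitiveRoot ζ n) (c : Fin n → ℂ)
    (hc : ∀ j, c j ≠ 0) (G : ℕ) (gate : ℕ → Gate) (out : Fin n → ℕ)
    (hcomp : ∀ (x : Fin n → ℂ) (j : Fin n),
      table n gate x G (out j) = c j * ∑ k : Fin n, ζ ^ ((j : ℕ) * (k : ℕ)) * x k)
    (S : Finset ℕ) (hS : S.card ≤ n) :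
    ((n : ℝ) - S.card) / 2 * Real.logb 2 n - Real.logb 2 (n.choose S.card) ≤
      ((Finset.range G \ S).filter fun t => (gate t).isAdditive = true).card +
      ∑ j : Fin n, Real.logb 2 (max 1 (gain n gate S G (out j) / ‖c j‖)) := by
  classical
  have h := gain_prod (by omega) hζ c hc G gate out hcomp S hS
  rw [Nat.choose_symm hS] at h
  set Q1 := ∏ j : Fin n, max 1 (gain n gate S G (out j) / ‖c j‖) with hQ1
  set Q2 := ∏ s ∈ Finset.range G \ S, (if (gate s).isAdditive then (2 : ℝ) else 1) with hQ2
  have hQ1pos : 0 < Q1 := Finset.prod_pos fun j _ => lt_of_lt_of_le one_pos (le_max_left _ _)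
  have hQ2pos : 0 < Q2 := Finset.prod_pos fun j _ => by split_ifs <;> norm_num
  have hchoosepos : 0 < n.choose S.card := Nat.choose_pos hS
  have hcpos : (0 : ℝ) < n.choose S.card := by exact_mod_cast hchoosepos
  have hnpos : (0 : ℝ) < n := by exact_mod_cast (by omega : 0 < n)
  have hlog := Real.logb_le_logb_of_le (b := 2) (by norm_num) (by positivity) h
  rw [Real.logb_pow, Real.logb_pow, Real.logb_mul (mul_pos hQ1pos hQ2pos).ne' hcpos.ne',
    Real.logb_mul hQ1pos.ne' hQ2pos.ne'] at hlog
  have hsum1 : Real.logb 2 Q1 = ∑ j : Fin n, Real.logb 2 (max 1 (gain n gate S G (out j) / ‖c j‖)) := by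
    rw [hQ1, Real.logb_prod]
    intro s _
    exact (lt_of_lt_of_le one_pos (le_max_left _ _)).ne'
  have hsum2 : Real.logb 2 Q2 =
      (((Finset.range G \ S).filter fun t => (gate t).isAdditive = true).card : ℝ) := by
    rw [hQ2, Real.logb_prod, Finset.card_filter]
    · push_cast
      refine Finset.sum_congr rfl fun s _ => ?_
      split_ifs
      · exact Real.logb_self_eq_one (by norm_num)
      · simp
    · intro s _
      split_ifs <;> norm_num
  rw [← hsum1, ← hsum2]
  have hcast : ((n - S.card : ℕ) : ℝ) = (n : ℝ) - S.card := by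
    rw [Nat.cast_sub hS]
  rw [hcast] at hlog
  push_cast at hlog
  linarith

end Vale.Agent.Lib.P344
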