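import Vale.Agent.Lib.P344.Potential

open Finset Matrix BigOperators

namespace Vale.Agent.Lib.P344

variable {n : ℕ}

theorem table_eq_dot (gate : ℕ → Gate) (x : Fin n → ℂ) (t i : ℕ) :
    table n gate x t i = forms n gate t i ⬝ᵥ x := by
  induction t generalizing i with
  | zero =>
    simp only [forms, table]
    split_ifs with h
    · simp [Pi.single_apply, dotProduct]
    · simp
  | succ t ih =>
    simp only [forms, table]
    by_cases h : i = n + t
    · subst h
      simp only [Function.update_self]
      cases hg : gate t with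
      | add u v =>
        simp only [Gate.eval]
        rw [add_dotProduct, ih u, ih v]
        rfl
      | sub u v =>
        simp only [Gate.eval]
        rw [sub_dotProduct, ih u, ih v]
        rfl
      | smul c u =>
        simp only [Gate.eval]
        rw [smul_dotProduct, ih u]
        rfl
    · rw [Function.update_of_ne h, Function.update_of_ne h, ih i]
      rfl

theorem forms_succ (gate : ℕ → Gate) (t : ℕ) :
    forms n gate (t + 1) =
      Function.update (forms n gate t) (n + t) ((gate t).eval (forms n gate t)) := rfl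

theorem one_le_cond (g : Gate) (T : ℕ → Fin n → ℂ) : 1 ≤ g.cond T := by
  cases g with
  | add u v =>
    simp only [Gate.cond]
    split_ifs with h
    · exact le_rfl
    · rw [one_le_div (norm_pos_iff.mpr h)]
      exact norm_add_le _ _
  | sub u v =>
    simp only [Gate.cond]
    split_ifs with h
    · exact le_rfl
    · rw [one_le_div (norm_pos_iff.mpr h)]
      exact norm_sub_le _ _
  | smul c u => simp [Gate.cond]

/-- The rows of the (deleted, normalised) circuit: existence and the bound for their minors. -/
theorem exists_rows (gate : ℕ → Gate) (G : ℕ) (S : Finset ℕ) (t : ℕ) (ht : t ≤ G) :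
    ∃ B : ℕ → Fin n → ℂ,
      (∀ x : Fin n → ℂ, (∀ g ∈ S, g < G → (gate g).eval (forms n gate g) ⬝ᵥ x = 0) →
        ∀ i, ((‖forms n gate t i‖ : ℝ) : ℂ) * (B i ⬝ᵥ x) = forms n gate t i ⬝ᵥ x) ∧
      MinorsLE B (∏ s ∈ Finset.range t \ S, (gate s).cond (forms n gate s)) := by
  classical
  induction t with
  | zero =>
    refine ⟨forms n gate 0, ?_, ?_⟩
    · intro x _ i
      simp only [forms, table]
      split_ifs with h
      · simp [Pi.norm_single]
      · simp
    · have := @minors_base n
      simpa [forms, table] using this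
  | succ t ih =>
    obtain ⟨B, hB1, hB2⟩ := ih (Nat.le_of_succ_le ht)
    have htG : t < G := Nat.lt_of_succ_le ht
    set P := ∏ s ∈ Finset.range t \ S, (gate s).cond (forms n gate s) with hP
    have hP1 : 0 ≤ P := Finset.prod_nonneg fun s _ => le_trans zero_le_one (one_le_cond _ _)
    -- the rows other than the new one keep their property
    have hold : ∀ (new : Fin n → ℂ) (x : Fin n → ℂ),
        (∀ g ∈ S, g < G → (gate g).eval (forms n gate g) ⬝ᵥ x = 0) →
        ((‖(gate t).eval (forms n gate t)‖ : ℝ) : ℂ) * (new ⬝ᵥ x) =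
          (gate t).eval (forms n gate t) ⬝ᵥ x →
        ∀ i, ((‖forms n gate (t + 1) i‖ : ℝ) : ℂ) * (Function.update B (n + t) new i ⬝ᵥ x) =
          forms n gate (t + 1) i ⬝ᵥ x := by
      intro new x hx hnew i
      rw [forms_succ]
      by_cases hi : i = n + t
      · subst hi
        simpa using hnew
      · rw [Function.update_of_ne hi, Function.update_of_ne hi]
        exact hB1 x hx i
    by_cases htS : t ∈ S
    · have hprod : ∏ s ∈ Finset.range (t + 1) \ S, (gate s).cond (forms n gate s) = P := by
        rw [Finset.range_add_one, Finset.insert_sdiff_of_mem _ htS]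
      rw [hprod]
      refine ⟨Function.update B (n + t) 0, ?_, ?_⟩
      · intro x hx
        refine hold 0 x hx ?_
        rw [hx t htS htG]
        simp
      · have := minors_update_zero hB2 hP1 (le_refl (1:ℝ)) (n + t)
        simpa using this
    · have hprod : ∏ s ∈ Finset.range (t + 1) \ S, (gate s).cond (forms n gate s) =
          (gate t).cond (forms n gate t) * P := by
        rw [Finset.range_add_one, Finset.insert_sdiff_of_notMem _ htS, Finset.prod_insert]
        simp
      rw [hprod]
      set T := forms n gate t with hT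
      -- the zero row works when the new form vanishes
      have hzero : (gate t).eval T = 0 →
          ∃ B' : ℕ → Fin n → ℂ,
            (∀ x : Fin n → ℂ, (∀ g ∈ S, g < G → (gate g).eval (forms n gate g) ⬝ᵥ x = 0) →
              ∀ i, ((‖forms n gate (t + 1) i‖ : ℝ) : ℂ) * (B' i ⬝ᵥ x) =
                forms n gate (t + 1) i ⬝ᵥ x) ∧
            MinorsLE B' ((gate t).cond T * P) := by
        intro h0
        refine ⟨Function.update B (n + t) 0, ?_, ?_⟩
        · intro x hx
          refine hold 0 x hx ?_
          rw [h0]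
          simp
        · exact minors_update_zero hB2 hP1 (one_le_cond _ _) (n + t)
      cases hg : gate t with
      | add u v =>
        have hw : (gate t).eval T = T u + T v := by rw [hg]; rfl
        by_cases h0 : T u + T v = 0
        · have := hzero (by rw [hw, h0])
          simpa [hg] using this
        · have hpos : 0 < ‖T u + T v‖ := norm_pos_iff.mpr h0
          have hne : ((‖T u + T v‖ : ℝ) : ℂ) ≠ 0 := by exact_mod_cast hpos.ne'
          set a : ℂ := ((‖T u‖ / ‖T u + T v‖ : ℝ) : ℂ) with ha
          set b : ℂ := ((‖T v‖ / ‖T u + T v‖ : ℝ) : ℂ) with hb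
          refine ⟨Function.update B (n + t) (a • B u + b • B v), ?_, ?_⟩
          · intro x hx
            refine hold _ x hx ?_
            rw [hw, add_dotProduct, smul_dotProduct, smul_dotProduct, add_dotProduct]
            have h1 := hB1 x hx u
            have h2 := hB1 x hx v
            rw [← h1, ← h2, ha, hb]
            simp only [smul_eq_mul]
            push_cast
            field_simp
          · have hcond : (Gate.add u v).cond T = (‖T u‖ + ‖T v‖) / ‖T u + T v‖ := by
              simp [Gate.cond, h0]
            rw [hcond]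
            refine minors_update_add hB2 hP1 ?_ _ _ _ _ _ ?_
            · rw [one_le_div hpos]
              exact norm_add_le _ _
            · rw [ha, hb, Complex.norm_real, Complex.norm_real, Real.norm_of_nonneg (by positivity),
                Real.norm_of_nonneg (by positivity)]
              exact le_of_eq (by ring)
      | sub u v =>
        have hw : (gate t).eval T = T u - T v := by rw [hg]; rfl
        by_cases h0 : T u - T v = 0
        · have := hzero (by rw [hw, h0])
          simpa [hg] using this
        · have hpos : 0 < ‖T u - T v‖ := norm_pos_iff.mpr h0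
          have hne : ((‖T u - T v‖ : ℝ) : ℂ) ≠ 0 := by exact_mod_cast hpos.ne'
          set a : ℂ := ((‖T u‖ / ‖T u - T v‖ : ℝ) : ℂ) with ha
          set b : ℂ := -((‖T v‖ / ‖T u - T v‖ : ℝ) : ℂ) with hb
          refine ⟨Function.update B (n + t) (a • B u + b • B v), ?_, ?_⟩
          · intro x hx
            refine hold _ x hx ?_
            rw [hw, add_dotProduct, smul_dotProduct, smul_dotProduct, sub_dotProduct]
            have h1 := hB1 x hx u
            have h2 := hB1 x hx v
            rw [← h1, ← h2, ha, hb]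
            simp only [smul_eq_mul]
            push_cast
            field_simp
            ring
          · have hcond : (Gate.sub u v).cond T = (‖T u‖ + ‖T v‖) / ‖T u - T v‖ := by
              simp [Gate.cond, h0]
            rw [hcond]
            refine minors_update_add hB2 hP1 ?_ _ _ _ _ _ ?_
            · rw [one_le_div hpos]
              exact norm_sub_le _ _
            · rw [ha, hb, norm_neg, Complex.norm_real, Complex.norm_real,
                Real.norm_of_nonneg (by positivity), Real.norm_of_nonneg (by positivity)]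
              exact le_of_eq (by ring)
      | smul c u =>
        have hw : (gate t).eval T = c • T u := by rw [hg]; rfl
        by_cases h0 : c • T u = 0
        · have := hzero (by rw [hw, h0])
          simpa [hg] using this
        · have hpos : 0 < ‖c • T u‖ := norm_pos_iff.mpr h0
          have hne : ((‖c • T u‖ : ℝ) : ℂ) ≠ 0 := by exact_mod_cast hpos.ne'
          set a : ℂ := c * ((‖T u‖ / ‖c • T u‖ : ℝ) : ℂ) with ha
          refine ⟨Function.update B (n + t) (a • B u + (0 : ℂ) • B u), ?_, ?_⟩
          · intro x hx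
            refine hold _ x hx ?_
            rw [hw, add_dotProduct, smul_dotProduct, smul_dotProduct, smul_dotProduct]
            have h1 := hB1 x hx u
            rw [← h1, ha]
            simp only [smul_eq_mul]
            push_cast
            field_simp
            ring
          · have hcond : (Gate.smul c u).cond T = 1 := by
              simp [Gate.cond]
            rw [hcond]
            refine minors_update_add hB2 hP1 le_rfl _ _ _ _ _ ?_
            rw [ha, norm_mul, Complex.norm_real, Real.norm_of_nonneg (by positivity), norm_zero,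
              add_zero]
            rw [norm_smul] at hpos ⊢
            have hcu : ‖c‖ * ‖T u‖ ≠ 0 := hpos.ne'
            rw [← mul_div_assoc, div_self hcu]

/-- The Fourier matrix with root `ζ`. -/
noncomputable def fourier (n : ℕ) (ζ : ℂ) : Matrix (Fin n) (Fin n) ℂ :=
  Matrix.of fun j k => ζ ^ ((j : ℕ) * (k : ℕ))

theorem fourier_conj_mul {ζ : ℂ} (hζ : IsPrimitiveRoot ζ n) (hn : 0 < n) :
    (fourier n ζ)ᴴ * fourier n ζ = (n : ℂ) • (1 : Matrix (Fin n) (Fin n) ℂ) := by
  classical
  have hnorm : ‖ζ‖ = 1 := hζ.norm'_eq_one hn.ne'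
  have hz0 : ζ ≠ 0 := hζ.ne_zero hn.ne'
  have hconj : (starRingEnd ℂ) ζ = ζ⁻¹ := by
    rw [Complex.inv_def, Complex.normSq_eq_norm_sq, hnorm]
    simp
  ext a b
  simp only [Matrix.mul_apply, Matrix.conjTranspose_apply, fourier, Matrix.of_apply, Matrix.smul_apply,
    Matrix.one_apply, smul_eq_mul, star_pow, RCLike.star_def, hconj]
  set ω : ℂ := ζ⁻¹ ^ (a : ℕ) * ζ ^ (b : ℕ) with hω
  have hterm : ∀ j : Fin n, ζ⁻¹ ^ ((j : ℕ) * (a : ℕ)) * ζ ^ ((j : ℕ) * (b : ℕ)) = ω ^ (j : ℕ) := by
    intro j
    rw [hω, mul_pow, ← pow_mul, ← pow_mul]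
    ring_nf
  simp only [hterm]
  rw [Fin.sum_univ_eq_sum_range (fun j => ω ^ j) n]
  by_cases hab : a = b
  · subst hab
    have : ω = 1 := by
      rw [hω, inv_pow]
      exact inv_mul_cancel₀ (pow_ne_zero _ hz0)
    simp [this]
  · have hω1 : ω ≠ 1 := by
      intro h
      rw [hω, inv_pow, inv_mul_eq_iff_eq_mul₀ (pow_ne_zero _ hz0), mul_one] at h
      exact hab (Fin.ext (hζ.pow_inj b.2 a.2 h).symm)
    have hωn : ω ^ n = 1 := by
      rw [hω, mul_pow, ← pow_mul, ← pow_mul, mul_comm (a : ℕ), mul_comm (b : ℕ), pow_mul, pow_mul ζ,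
        inv_pow, hζ.pow_eq_one]
      simp
    rw [geom_sum_eq hω1, hωn]
    simp [hab]

/-- Orthonormal columns inside the common kernel of `s` linear forms. -/
theorem exists_orthonormal_kernel (S : Finset ℕ) (g : ℕ → Fin n → ℂ) (hS : S.card ≤ n) :
    ∃ P : Matrix (Fin n) (Fin (n - S.card)) ℂ, Pᴴ * P = 1 ∧
      ∀ i ∈ S, ∀ a, g i ⬝ᵥ (fun k => P k a) = 0 := by
  classical
  let E := EuclideanSpace ℂ (Fin n)
  let L : E →ₗ[ℂ] (S → ℂ) :=
    { toFun := fun x i => g i.1 ⬝ᵥ (x : Fin n → ℂ)
      map_add' := by
        intro x y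
        ext i
        change g i.1 ⬝ᵥ ((x : Fin n → ℂ) + (y : Fin n → ℂ)) = _
        rw [dotProduct_add]
        rfl
      map_smul' := by
        intro c x
        ext i
        change g i.1 ⬝ᵥ (c • (x : Fin n → ℂ)) = _
        rw [dotProduct_smul]
        rfl }
  have hrank := LinearMap.finrank_range_add_finrank_ker L
  have hE : Module.finrank ℂ E = n := by simp [E]
  have hR : Module.finrank ℂ (LinearMap.range L) ≤ S.card := by
    calc _ ≤ Module.finrank ℂ (S → ℂ) := Submodule.finrank_le _
      _ = S.card := by simp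
  have hker : n - S.card ≤ Module.finrank ℂ (LinearMap.ker L) := by omega
  let b := stdOrthonormalBasis ℂ (LinearMap.ker L)
  let e : Fin (n - S.card) → Fin (Module.finrank ℂ (LinearMap.ker L)) := Fin.castLE hker
  have he : Function.Injective e := Fin.castLE_injective hker
  refine ⟨Matrix.of fun k a => ((b (e a) : LinearMap.ker L) : E) k, ?_, ?_⟩
  · ext a c
    have horth := b.orthonormal
    have h1 := (orthonormal_iff_ite.mp horth) (e a) (e c)
    simp only [Matrix.mul_apply, Matrix.conjTranspose_apply, Matrix.of_apply, Matrix.one_apply]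
    have h2 : inner ℂ (b (e a)) (b (e c)) =
        ∑ k, star (((b (e a) : LinearMap.ker L) : E) k) * ((b (e c) : LinearMap.ker L) : E) k := by
      rw [Submodule.coe_inner, PiLp.inner_apply]
      refine Finset.sum_congr rfl fun k _ => ?_
      simp [mul_comm]
    rw [← h2, h1]
    simp [he.eq_iff]
  · intro i hi a
    have hmem : ((b (e a) : LinearMap.ker L) : E) ∈ LinearMap.ker L := (b (e a)).2
    have h := LinearMap.mem_ker.mp hmem
    have := congrFun h ⟨i, hi⟩
    exact this

/-- The main inequality for products of condition numbers. -/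
theorem main_prod {ζ : ℂ} (hn : 0 < n) (hζ : IsPrimitiveRoot ζ n) (c : Fin n → ℂ)
    (hc : ∀ j, c j ≠ 0) (G : ℕ) (gate : ℕ → Gate) (out : Fin n → ℕ)
    (hcomp : ∀ (x : Fin n → ℂ) (j : Fin n),
      table n gate x G (out j) = c j * ∑ k : Fin n, ζ ^ ((j : ℕ) * (k : ℕ)) * x k)
    (S : Finset ℕ) (hS : S.card ≤ n) :
    (n : ℝ) ^ (n - S.card) ≤
      ((∏ s ∈ Finset.range G \ S, (gate s).cond (forms n gate s)) *
        (n.choose (n - S.card))) ^ 2 := by
  classical
  obtain ⟨B, hB1, hB2⟩ := exists_rows (n := n) gate G S G le_rfl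
  obtain ⟨P, hP1, hP2⟩ := exists_orthonormal_kernel S
    (fun g => if g < G then (gate g).eval (forms n gate g) else 0) hS
  set N : Matrix (Fin n) (Fin n) ℂ := Matrix.of fun j k => B (out j) k with hN
  have hnorm : ‖ζ‖ = 1 := hζ.norm'_eq_one hn.ne'
  have hforms : ∀ j k, forms n gate G (out j) k = c j * ζ ^ ((j : ℕ) * (k : ℕ)) := by
    intro j k
    have h := hcomp (Pi.single k 1) j
    rw [table_eq_dot] at h
    have h2 : forms n gate G (out j) ⬝ᵥ (Pi.single k 1) = forms n gate G (out j) k := by
      simp
    rw [h2] at h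
    rw [h]
    congr 1
    rw [Finset.sum_eq_single k]
    · simp
    · intro b _ hb
      simp [hb]
    · simp
  have hfnorm : ∀ j, ‖forms n gate G (out j)‖ = ‖c j‖ := by
    intro j
    have hne : Nonempty (Fin n) := ⟨⟨0, hn⟩⟩
    apply le_antisymm
    · refine (pi_norm_le_iff_of_nonneg (norm_nonneg _)).mpr fun k => ?_
      rw [hforms, norm_mul, norm_pow, hnorm]
      simp
    · have := norm_le_pi_norm (forms n gate G (out j)) ⟨0, hn⟩
      rw [hforms, norm_mul, norm_pow, hnorm] at this
      simpa using this
  -- the phases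
  let φ : Fin n → ℂ := fun j => c j / ((‖c j‖ : ℝ) : ℂ)
  have hφ : ∀ j, star (φ j) * φ j = 1 := by
    intro j
    have h0 : ((‖c j‖ : ℝ) : ℂ) ≠ 0 := by
      exact_mod_cast (norm_pos_iff.mpr (hc j)).ne'
    simp only [φ, RCLike.star_def]
    rw [mul_comm, Complex.mul_conj']
    rw [norm_div, Complex.norm_real, norm_norm, div_self (norm_pos_iff.mpr (hc j)).ne']
    simp
  have hNP : N * P = Matrix.diagonal φ * (fourier n ζ * P) := by
    ext j a
    have hx : ∀ g ∈ S, g < G → (gate g).eval (forms n gate g) ⬝ᵥ (fun k => P k a) = 0 := by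
      intro g hg hgG
      have := hP2 g hg a
      simpa [hgG] using this
    have h := hB1 (fun k => P k a) hx (out j)
    rw [hfnorm] at h
    have h0 : ((‖c j‖ : ℝ) : ℂ) ≠ 0 := by
      exact_mod_cast (norm_pos_iff.mpr (hc j)).ne'
    have h3 : forms n gate G (out j) ⬝ᵥ (fun k => P k a) =
        c j * ∑ k : Fin n, ζ ^ ((j : ℕ) * (k : ℕ)) * P k a := by
      simp only [dotProduct, hforms, Finset.mul_sum, mul_assoc]
    rw [Matrix.diagonal_mul]
    have h4 : N.mulVec (fun k => P k a) j = B (out j) ⬝ᵥ (fun k => P k a) := rfl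
    have h5 : (N * P) j a = B (out j) ⬝ᵥ (fun k => P k a) := by
      simp [Matrix.mul_apply, hN, dotProduct]
    have h6 : (fourier n ζ * P) j a = ∑ k : Fin n, ζ ^ ((j : ℕ) * (k : ℕ)) * P k a := by
      simp [Matrix.mul_apply, fourier]
    rw [h5, h6]
    rw [h3] at h
    simp only [φ]
    field_simp
    linear_combination h
  have hQ : (N * P)ᴴ * (N * P) = ((n : ℝ) : ℂ) • (1 : Matrix (Fin (n - S.card)) (Fin (n - S.card)) ℂ) := by
    rw [hNP, Matrix.conjTranspose_mul, Matrix.diagonal_conjTranspose]
    have hdd : (star φ : Fin n → ℂ) = fun j => star (φ j) := rfl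
    have hdiag : Matrix.diagonal (star φ) * Matrix.diagonal φ = (1 : Matrix (Fin n) (Fin n) ℂ) := by
      rw [Matrix.diagonal_mul_diagonal, ← Matrix.diagonal_one]
      congr 1
      ext j
      exact hφ j
    calc ((fourier n ζ * P)ᴴ * Matrix.diagonal (star φ)) * (Matrix.diagonal φ * (fourier n ζ * P))
        = (fourier n ζ * P)ᴴ * (Matrix.diagonal (star φ) * Matrix.diagonal φ) * (fourier n ζ * P) := by
          simp only [Matrix.mul_assoc]
      _ = Pᴴ * ((fourier n ζ)ᴴ * fourier n ζ) * P := by
          rw [hdiag, Matrix.mul_one, Matrix.conjTranspose_mul]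
          simp only [Matrix.mul_assoc]
      _ = ((n : ℝ) : ℂ) • (1 : Matrix (Fin (n - S.card)) (Fin (n - S.card)) ℂ) := by
          rw [fourier_conj_mul hζ hn]
          simp only [Matrix.mul_smul, Matrix.smul_mul, Matrix.mul_one, hP1]
          simp
  have hminors : ∀ I J : Fin (n - S.card) → Fin n, ‖(N.submatrix I J).det‖ ≤
      ∏ s ∈ Finset.range G \ S, (gate s).cond (forms n gate s) := by
    intro I J
    exact hB2 _ (fun a => out (I a)) J
  have hprodnn : 0 ≤ ∏ s ∈ Finset.range G \ S, (gate s).cond (forms n gate s) :=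
    Finset.prod_nonneg fun s _ => le_trans zero_le_one (one_le_cond _ _)
  exact minor_lower_bound N P hP1 n hQ _ hprodnn hminors

/-- The main theorem, in logarithmic form. -/
theorem main_log {ζ : ℂ} (hn : 2 ≤ n) (hζ : IsPrimitiveRoot ζ n) (c : Fin n → ℂ)
    (hc : ∀ j, c j ≠ 0) (G : ℕ) (gate : ℕ → Gate) (out : Fin n → ℕ)
    (hcomp : ∀ (x : Fin n → ℂ) (j : Fin n),
      table n gate x G (out j) = c j * ∑ k : Fin n, ζ ^ ((j : ℕ) * (k : ℕ)) * x k)
    (S : Finset ℕ) (hS : S.card ≤ n) :
    ((n : ℝ) - S.card) / 2 * Real.logb 2 n - Real.logb 2 (n.choose S.card) ≤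
      ∑ t ∈ Finset.range G \ S, Real.logb 2 ((gate t).cond (forms n gate t)) := by
  have h := main_prod (by omega) hζ c hc G gate out hcomp S hS
  rw [Nat.choose_symm hS] at h
  set Q := ∏ s ∈ Finset.range G \ S, (gate s).cond (forms n gate s) with hQ
  have hQ1 : 1 ≤ Q := by
    exact Finset.prod_induction _ (fun x => 1 ≤ x)
      (fun a b ha hb => one_le_mul_of_one_le_of_one_le ha hb) le_rfl
      (fun s _ => one_le_cond _ _)
  have hQpos : 0 < Q := by linarith
  have hchoosepos : 0 < n.choose S.card := Nat.choose_pos hS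
  have hcpos : (0 : ℝ) < n.choose S.card := by exact_mod_cast hchoosepos
  have hnpos : (0 : ℝ) < n := by exact_mod_cast (by omega : 0 < n)
  have hlog := Real.logb_le_logb_of_le (b := 2) (by norm_num) (by positivity) h
  rw [Real.logb_pow, Real.logb_pow, Real.logb_mul hQpos.ne' hcpos.ne'] at hlog
  have hsum : Real.logb 2 Q = ∑ t ∈ Finset.range G \ S, Real.logb 2 ((gate t).cond (forms n gate t)) := by
    rw [hQ, Real.logb_prod]
    intro s _
    exact (lt_of_lt_of_le one_pos (one_le_cond _ _)).ne'
  rw [← hsum]
  have hcast : ((n - S.card : ℕ) : ℝ) = (n : ℝ) - S.card := by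
    rw [Nat.cast_sub hS]
  rw [hcast] at hlog
  push_cast at hlog
  linarith

end Vale.Agent.Lib.P344
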