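import Vale.Agent.Lib.P344.Main
import Vale.Agent.Lib.P344.DefsMaster

open Finset Matrix BigOperators

namespace Vale.Agent.Lib.P344

variable {n : ℕ}

theorem one_le_max_weightCost (g : Gate) (T : ℕ → Fin n → ℂ) (w : ℕ → ℝ) (p : ℕ) :
    1 ≤ max 1 (g.weightCost T w p) := le_max_left _ _

/-- The weighted rows. -/
theorem exists_rows_weighted (gate : ℕ → Gate) (w : ℕ → ℝ) (hw : ∀ i, 0 < w i)
    (hw1 : ∀ i, i < n → w i = 1) (G : ℕ) (S : Finset ℕ) (t : ℕ) (ht : t ≤ G) :
    ∃ B : ℕ → Fin n → ℂ,
      (∀ x : Fin n → ℂ, (∀ g ∈ S, g < G → (gate g).eval (forms n gate g) ⬝ᵥ x = 0) →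
        ∀ i, B i ⬝ᵥ x = ((w i : ℝ) : ℂ) * (forms n gate t i ⬝ᵥ x)) ∧
      MinorsLE B (∏ s ∈ Finset.range t \ S,
        max 1 ((gate s).weightCost (forms n gate s) w (n + s))) := by
  classical
  induction t with
  | zero =>
    refine ⟨forms n gate 0, ?_, ?_⟩
    · intro x _ i
      by_cases h : i < n
      · rw [hw1 i h]
        simp
      · simp only [forms, table]
        rw [dif_neg h]
        simp
    · have := @minors_base n
      simpa [forms, table] using this
  | succ t ih =>
    obtain ⟨B, hB1, hB2⟩ := ih (Nat.le_of_succ_le ht)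
    have htG : t < G := Nat.lt_of_succ_le ht
    set P := ∏ s ∈ Finset.range t \ S, max 1 ((gate s).weightCost (forms n gate s) w (n + s)) with hP
    have hP1 : 0 ≤ P := Finset.prod_nonneg fun s _ => le_trans zero_le_one (le_max_left _ _)
    have hold : ∀ (new : Fin n → ℂ) (x : Fin n → ℂ),
        (∀ g ∈ S, g < G → (gate g).eval (forms n gate g) ⬝ᵥ x = 0) →
        new ⬝ᵥ x = ((w (n + t) : ℝ) : ℂ) * ((gate t).eval (forms n gate t) ⬝ᵥ x) →
        ∀ i, Function.update B (n + t) new i ⬝ᵥ x =
          ((w i : ℝ) : ℂ) * (forms n gate (t + 1) i ⬝ᵥ x) := by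
      intro new x hx hnew i
      rw [forms_succ]
      by_cases hi : i = n + t
      · subst hi
        simpa using hnew
      · rw [Function.update_of_ne hi, Function.update_of_ne hi]
        exact hB1 x hx i
    by_cases htS : t ∈ S
    · have hprod : ∏ s ∈ Finset.range (t + 1) \ S,
          max 1 ((gate s).weightCost (forms n gate s) w (n + s)) = P := by
        rw [Finset.range_add_one, Finset.insert_sdiff_of_mem _ htS]
      rw [hprod]
      refine ⟨Function.update B (n + t) 0, ?_, ?_⟩
      · intro x hx
        refine hold 0 x hx ?_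
        rw [hx t htS htG]
        simp
      · have := minors_update_zero hB2 hP1 (le_refl (1:ℝ)) (n + t)
        simpa using this
    · have hprod : ∏ s ∈ Finset.range (t + 1) \ S,
          max 1 ((gate s).weightCost (forms n gate s) w (n + s)) =
          max 1 ((gate t).weightCost (forms n gate t) w (n + t)) * P := by
        rw [Finset.range_add_one, Finset.insert_sdiff_of_notMem _ htS, Finset.prod_insert]
        simp
      rw [hprod]
      set T := forms n gate t with hT
      have hwp : ((w (n + t) : ℝ) : ℂ) ≠ 0 := by exact_mod_cast (hw _).ne'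
      have hzero : (gate t).eval T = 0 →
          ∃ B' : ℕ → Fin n → ℂ,
            (∀ x : Fin n → ℂ, (∀ g ∈ S, g < G → (gate g).eval (forms n gate g) ⬝ᵥ x = 0) →
              ∀ i, B' i ⬝ᵥ x = ((w i : ℝ) : ℂ) * (forms n gate (t + 1) i ⬝ᵥ x)) ∧
            MinorsLE B' (max 1 ((gate t).weightCost T w (n + t)) * P) := by
        intro h0
        refine ⟨Function.update B (n + t) 0, ?_, ?_⟩
        · intro x hx
          refine hold 0 x hx ?_
          rw [h0]
          simp
        · exact minors_update_zero hB2 hP1 (le_max_left _ _) (n + t)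
      -- coefficient of an operand
      have hterm : ∀ (i : ℕ) (x : Fin n → ℂ),
          (∀ g ∈ S, g < G → (gate g).eval (forms n gate g) ⬝ᵥ x = 0) →
          (((if T i = 0 then 0 else w (n + t) / w i : ℝ) : ℝ) : ℂ) * (B i ⬝ᵥ x) =
            ((w (n + t) : ℝ) : ℂ) * (T i ⬝ᵥ x) := by
        intro i x hx
        have h1 := hB1 x hx i
        have hwi : ((w i : ℝ) : ℂ) ≠ 0 := by exact_mod_cast (hw i).ne'
        by_cases h0 : T i = 0
        · rw [if_pos h0, h0]
          simp
        · rw [if_neg h0, h1]
          push_cast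
          field_simp
      have hnn : ∀ i : ℕ, 0 ≤ (if T i = 0 then 0 else w (n + t) / w i : ℝ) := by
        intro i
        split_ifs
        · exact le_rfl
        · exact (div_pos (hw _) (hw _)).le
      cases hg : gate t with
      | add u v =>
        have hw' : (gate t).eval T = T u + T v := by rw [hg]; rfl
        by_cases h0 : T u + T v = 0
        · have := hzero (by rw [hw', h0])
          simpa [hg] using this
        · set a : ℝ := (if T u = 0 then 0 else w (n + t) / w u : ℝ) with ha
          set b : ℝ := (if T v = 0 then 0 else w (n + t) / w v : ℝ) with hb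
          refine ⟨Function.update B (n + t) (((a : ℝ) : ℂ) • B u + ((b : ℝ) : ℂ) • B v), ?_, ?_⟩
          · intro x hx
            refine hold _ x hx ?_
            rw [hw', add_dotProduct, smul_dotProduct, smul_dotProduct, add_dotProduct]
            simp only [smul_eq_mul]
            rw [ha, hb, hterm u x hx, hterm v x hx]
            ring
          · have hcost : (Gate.add u v).weightCost T w (n + t) = a + b := by
              simp [Gate.weightCost, h0, ha, hb]
            rw [hcost]
            refine minors_update_add hB2 hP1 (le_max_left _ _) _ _ _ _ _ ?_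
            rw [Complex.norm_real, Complex.norm_real, Real.norm_of_nonneg (hnn u),
              Real.norm_of_nonneg (hnn v)]
            exact le_max_right _ _
      | sub u v =>
        have hw' : (gate t).eval T = T u - T v := by rw [hg]; rfl
        by_cases h0 : T u - T v = 0
        · have := hzero (by rw [hw', h0])
          simpa [hg] using this
        · set a : ℝ := (if T u = 0 then 0 else w (n + t) / w u : ℝ) with ha
          set b : ℝ := (if T v = 0 then 0 else w (n + t) / w v : ℝ) with hb
          refine ⟨Function.update B (n + t) (((a : ℝ) : ℂ) • B u + (-((b : ℝ) : ℂ)) • B v), ?_, ?_⟩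
          · intro x hx
            refine hold _ x hx ?_
            rw [hw', add_dotProduct, smul_dotProduct, smul_dotProduct, sub_dotProduct]
            simp only [smul_eq_mul]
            rw [ha, neg_mul, hb, hterm u x hx, hterm v x hx]
            ring
          · have hcost : (Gate.sub u v).weightCost T w (n + t) = a + b := by
              simp [Gate.weightCost, h0, ha, hb]
            rw [hcost]
            refine minors_update_add hB2 hP1 (le_max_left _ _) _ _ _ _ _ ?_
            rw [norm_neg, Complex.norm_real, Complex.norm_real, Real.norm_of_nonneg (hnn u),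
              Real.norm_of_nonneg (hnn v)]
            exact le_max_right _ _
      | smul c u =>
        have hw' : (gate t).eval T = c • T u := by rw [hg]; rfl
        by_cases h0 : c • T u = 0
        · have := hzero (by rw [hw', h0])
          simpa [hg] using this
        · have hwu : ((w u : ℝ) : ℂ) ≠ 0 := by exact_mod_cast (hw u).ne'
          set a : ℂ := c * ((w (n + t) / w u : ℝ) : ℂ) with ha
          refine ⟨Function.update B (n + t) (a • B u + (0 : ℂ) • B u), ?_, ?_⟩
          · intro x hx
            refine hold _ x hx ?_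
            rw [hw', add_dotProduct, smul_dotProduct, smul_dotProduct, smul_dotProduct]
            have h1 := hB1 x hx u
            simp only [smul_eq_mul]
            rw [h1, ha]
            push_cast
            field_simp
            ring
          · have hcost : (Gate.smul c u).weightCost T w (n + t) = ‖c‖ * (w (n + t) / w u) := by
              simp [Gate.weightCost, h0]
            rw [hcost]
            refine minors_update_add hB2 hP1 (le_max_left _ _) _ _ _ _ _ ?_
            rw [ha, norm_mul, Complex.norm_real, Real.norm_of_nonneg (div_pos (hw _) (hw _)).le,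
              norm_zero, add_zero]
            exact le_max_right _ _

/-- The master inequality for products. -/
theorem master_prod {ζ : ℂ} (hn : 0 < n) (hζ : IsPrimitiveRoot ζ n) (c : Fin n → ℂ)
    (hc : ∀ j, c j ≠ 0) (G : ℕ) (gate : ℕ → Gate) (out : Fin n → ℕ)
    (hcomp : ∀ (x : Fin n → ℂ) (j : Fin n),
      table n gate x G (out j) = c j * ∑ k : Fin n, ζ ^ ((j : ℕ) * (k : ℕ)) * x k)
    (w : ℕ → ℝ) (hw : ∀ i, 0 < w i) (hw1 : ∀ i, i < n → w i = 1)
    (S : Finset ℕ) (hS : S.card ≤ n) :
    (n : ℝ) ^ (n - S.card) ≤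
      (((∏ j : Fin n, max 1 (1 / (w (out j) * ‖c j‖))) *
        ∏ s ∈ Finset.range G \ S, max 1 ((gate s).weightCost (forms n gate s) w (n + s))) *
        (n.choose (n - S.card))) ^ 2 := by
  classical
  obtain ⟨B, hB1, hB2⟩ := exists_rows_weighted (n := n) gate w hw hw1 G S G le_rfl
  obtain ⟨P, hP1, hP2⟩ := exists_orthonormal_kernel S
    (fun g => if g < G then (gate g).eval (forms n gate g) else 0) hS
  let D : Fin n → ℝ := fun j => w (out j) * ‖c j‖
  have hD : ∀ j, 0 < D j := fun j => mul_pos (hw _) (norm_pos_iff.mpr (hc j))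
  set N : Matrix (Fin n) (Fin n) ℂ := Matrix.of fun j k => ((1 / D j : ℝ) : ℂ) * B (out j) k with hN
  have hforms : ∀ j k, forms n gate G (out j) k = c j * ζ ^ ((j : ℕ) * (k : ℕ)) := by
    intro j k
    have h := hcomp (Pi.single k 1) j
    rw [table_eq_dot] at h
    have h2 : forms n gate G (out j) ⬝ᵥ (Pi.single k 1) = forms n gate G (out j) k := by
      simp
    rw [h2] at h
    rw [h]
    congr 1
    rw [Finset.sum_eq_single k]
    · simp
    · intro b _ hb
      simp [hb]
    · simp
  let φ : Fin n → ℂ := fun j => c j / ((‖c j‖ : ℝ) : ℂ)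
  have hφ : ∀ j, star (φ j) * φ j = 1 := by
    intro j
    simp only [φ, RCLike.star_def]
    rw [mul_comm, Complex.mul_conj']
    rw [norm_div, Complex.norm_real, norm_norm, div_self (norm_pos_iff.mpr (hc j)).ne']
    simp
  have hNP : N * P = Matrix.diagonal φ * (fourier n ζ * P) := by
    ext j a
    have hx : ∀ g ∈ S, g < G → (gate g).eval (forms n gate g) ⬝ᵥ (fun k => P k a) = 0 := by
      intro g hg hgG
      have := hP2 g hg a
      simpa [hgG] using this
    have h := hB1 (fun k => P k a) hx (out j)
    have h3 : forms n gate G (out j) ⬝ᵥ (fun k => P k a) =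
        c j * ∑ k : Fin n, ζ ^ ((j : ℕ) * (k : ℕ)) * P k a := by
      simp only [dotProduct, hforms, Finset.mul_sum, mul_assoc]
    rw [Matrix.diagonal_mul]
    have h5 : (N * P) j a = ((1 / D j : ℝ) : ℂ) * (B (out j) ⬝ᵥ (fun k => P k a)) := by
      simp [Matrix.mul_apply, hN, dotProduct, Finset.mul_sum, mul_assoc]
    have h6 : (fourier n ζ * P) j a = ∑ k : Fin n, ζ ^ ((j : ℕ) * (k : ℕ)) * P k a := by
      simp [Matrix.mul_apply, fourier]
    rw [h5, h6, h, h3]
    simp only [φ, D]
    have h0 : ((‖c j‖ : ℝ) : ℂ) ≠ 0 := by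
      exact_mod_cast (norm_pos_iff.mpr (hc j)).ne'
    have h01 : ((w (out j) : ℝ) : ℂ) ≠ 0 := by exact_mod_cast (hw _).ne'
    push_cast
    field_simp
  have hQ : (N * P)ᴴ * (N * P) = ((n : ℝ) : ℂ) • (1 : Matrix (Fin (n - S.card)) (Fin (n - S.card)) ℂ) := by
    rw [hNP, Matrix.conjTranspose_mul, Matrix.diagonal_conjTranspose]
    have hdiag : Matrix.diagonal (star φ) * Matrix.diagonal φ = (1 : Matrix (Fin n) (Fin n) ℂ) := by
      rw [Matrix.diagonal_mul_diagonal, ← Matrix.diagonal_one]
      congr 1
      ext j
      exact hφ j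
    calc ((fourier n ζ * P)ᴴ * Matrix.diagonal (star φ)) * (Matrix.diagonal φ * (fourier n ζ * P))
        = (fourier n ζ * P)ᴴ * (Matrix.diagonal (star φ) * Matrix.diagonal φ) * (fourier n ζ * P) := by
          simp only [Matrix.mul_assoc]
      _ = Pᴴ * ((fourier n ζ)ᴴ * fourier n ζ) * P := by
          rw [hdiag, Matrix.mul_one, Matrix.conjTranspose_mul]
          simp only [Matrix.mul_assoc]
      _ = ((n : ℝ) : ℂ) • (1 : Matrix (Fin (n - S.card)) (Fin (n - S.card)) ℂ) := by
          rw [fourier_conj_mul hζ hn]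
          simp only [Matrix.mul_smul, Matrix.smul_mul, Matrix.mul_one, hP1]
          simp
  set Q1 := ∏ j : Fin n, max 1 (1 / (w (out j) * ‖c j‖)) with hQ1
  set Q2 := ∏ s ∈ Finset.range G \ S, max 1 ((gate s).weightCost (forms n gate s) w (n + s)) with hQ2
  have hQ1nn : 0 ≤ Q1 := Finset.prod_nonneg fun j _ => le_trans zero_le_one (le_max_left _ _)
  have hQ2nn : 0 ≤ Q2 := Finset.prod_nonneg fun j _ => le_trans zero_le_one (le_max_left _ _)
  have hminors : ∀ I J : Fin (n - S.card) → Fin n, ‖(N.submatrix I J).det‖ ≤ Q1 * Q2 := by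
    intro I J
    by_cases hI : Function.Injective I
    · have hdet : (N.submatrix I J).det =
          (∏ a, ((1 / D (I a) : ℝ) : ℂ)) *
            (Matrix.of fun a b => B (out (I a)) (J b)).det := by
        have : N.submatrix I J = Matrix.of fun a b => ((1 / D (I a) : ℝ) : ℂ) * B (out (I a)) (J b) := by
          ext a b
          simp [hN, Matrix.submatrix_apply]
        rw [this]
        exact Matrix.det_mul_column _ _
      rw [hdet, norm_mul, norm_prod]
      have h1 := hB2 _ (fun a => out (I a)) J
      have h2 : ∏ a, ‖((1 / D (I a) : ℝ) : ℂ)‖ ≤ Q1 := by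
        calc ∏ a, ‖((1 / D (I a) : ℝ) : ℂ)‖
            ≤ ∏ a, max 1 (1 / D (I a)) := by
              refine Finset.prod_le_prod (fun a _ => norm_nonneg _) fun a _ => ?_
              rw [Complex.norm_real, Real.norm_of_nonneg (by have := hD (I a); positivity)]
              exact le_max_right _ _
          _ = ∏ j ∈ Finset.univ.image I, max 1 (1 / D j) := by
              rw [Finset.prod_image fun a _ b _ h => hI h]
          _ ≤ Q1 := by
              rw [hQ1]
              have hsub : Finset.univ.image I ⊆ (Finset.univ : Finset (Fin n)) := Finset.subset_univ _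
              rw [← Finset.prod_sdiff hsub]
              refine le_mul_of_one_le_left (Finset.prod_nonneg fun j _ => le_trans zero_le_one (le_max_left _ _)) ?_
              exact Finset.prod_induction _ (fun x => 1 ≤ x)
                (fun a b ha hb => one_le_mul_of_one_le_of_one_le ha hb) le_rfl
                (fun s _ => le_max_left _ _)
      exact mul_le_mul h2 h1 (norm_nonneg _) hQ1nn
    · simp only [Function.Injective, not_forall] at hI
      obtain ⟨a, b, hab, hne⟩ := hI
      have : (N.submatrix I J).det = 0 :=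
        Matrix.det_zero_of_row_eq (i := a) (j := b) hne (by ext k; simp [Matrix.submatrix_apply, hab])
      rw [this, norm_zero]
      exact mul_nonneg hQ1nn hQ2nn
  exact minor_lower_bound N P hP1 n hQ _ (mul_nonneg hQ1nn hQ2nn) hminors

/-- The master theorem in logarithmic form. -/
theorem master_log {ζ : ℂ} (hn : 2 ≤ n) (hζ : IsPrimitiveRoot ζ n) (c : Fin n → ℂ)
    (hc : ∀ j, c j ≠ 0) (G : ℕ) (gate : ℕ → Gate) (out : Fin n → ℕ)
    (hcomp : ∀ (x : Fin n → ℂ) (j : Fin n),
      table n gate x G (out j) = c j * ∑ k : Fin n, ζ ^ ((j : ℕ) * (k : ℕ)) * x k)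
    (w : ℕ → ℝ) (hw : ∀ i, 0 < w i) (hw1 : ∀ i, i < n → w i = 1)
    (S : Finset ℕ) (hS : S.card ≤ n) :
    ((n : ℝ) - S.card) / 2 * Real.logb 2 n - Real.logb 2 (n.choose S.card) ≤
      ∑ t ∈ Finset.range G \ S, Real.logb 2 (max 1 ((gate t).weightCost (forms n gate t) w (n + t))) +
      ∑ j : Fin n, Real.logb 2 (max 1 (1 / (w (out j) * ‖c j‖))) := by
  have h := master_prod (by omega) hζ c hc G gate out hcomp w hw hw1 S hS
  rw [Nat.choose_symm hS] at h
  set Q1 := ∏ j : Fin n, max 1 (1 / (w (out j) * ‖c j‖)) with hQ1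
  set Q2 := ∏ s ∈ Finset.range G \ S, max 1 ((gate s).weightCost (forms n gate s) w (n + s)) with hQ2
  have hone : ∀ {ι : Type} (s : Finset ι) (f : ι → ℝ), 1 ≤ ∏ i ∈ s, max 1 (f i) := by
    intro ι s f
    exact Finset.prod_induction _ (fun x => 1 ≤ x)
      (fun a b ha hb => one_le_mul_of_one_le_of_one_le ha hb) le_rfl
      (fun s _ => le_max_left _ _)
  have hQ1pos : 0 < Q1 := lt_of_lt_of_le one_pos (hone _ _)
  have hQ2pos : 0 < Q2 := lt_of_lt_of_le one_pos (hone _ _)
  have hchoosepos : 0 < n.choose S.card := Nat.choose_pos hS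
  have hcpos : (0 : ℝ) < n.choose S.card := by exact_mod_cast hchoosepos
  have hnpos : (0 : ℝ) < n := by exact_mod_cast (by omega : 0 < n)
  have hlog := Real.logb_le_logb_of_le (b := 2) (by norm_num) (by positivity) h
  rw [Real.logb_pow, Real.logb_pow, Real.logb_mul (mul_pos hQ1pos hQ2pos).ne' hcpos.ne',
    Real.logb_mul hQ1pos.ne' hQ2pos.ne'] at hlog
  have hsum1 : Real.logb 2 Q1 = ∑ j : Fin n, Real.logb 2 (max 1 (1 / (w (out j) * ‖c j‖))) := by
    rw [hQ1, Real.logb_prod]
    intro s _
    exact (lt_of_lt_of_le one_pos (le_max_left _ _)).ne'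
  have hsum2 : Real.logb 2 Q2 = ∑ t ∈ Finset.range G \ S,
      Real.logb 2 (max 1 ((gate t).weightCost (forms n gate t) w (n + t))) := by
    rw [hQ2, Real.logb_prod]
    intro s _
    exact (lt_of_lt_of_le one_pos (le_max_left _ _)).ne'
  rw [← hsum1, ← hsum2]
  have hcast : ((n - S.card : ℕ) : ℝ) = (n : ℝ) - S.card := by
    rw [Nat.cast_sub hS]
  rw [hcast] at hlog
  push_cast at hlog
  linarith

end Vale.Agent.Lib.P344
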