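import Vale.Agent.Lib.P344.CauchyBinet

open Finset Matrix BigOperators

namespace Vale.Agent.Lib.P344

/-- A determinant with two equal selected rows vanishes. -/
theorem det_submatrix_noninj {m n : ℕ} (B : Matrix (Fin n) (Fin m) ℂ) {r : Fin m → Fin n}
    (hr : ¬ Function.Injective r) : (B.submatrix r id).det = 0 := by
  classical
  simp only [Function.Injective, not_forall] at hr
  obtain ⟨a, b, hab, hne⟩ := hr
  exact Matrix.det_zero_of_row_eq (i := a) (j := b) hne (by ext j; simp [Matrix.submatrix_apply, hab])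

theorem card_injective (m n : ℕ) :
    ((Finset.univ.filter fun r : Fin m → Fin n => Function.Injective r).card) =
      n.descFactorial m := by
  classical
  rw [← Fintype.card_subtype, Fintype.card_congr (Equiv.subtypeInjectiveEquivEmbedding (Fin m) (Fin n)),
    Fintype.card_embedding_eq]
  simp

/-- The sum of the squared minors of a matrix with orthogonal columns of squared length `d`. -/
theorem sum_sq_minors {m n : ℕ} (Q : Matrix (Fin n) (Fin m) ℂ) (d : ℝ)
    (hQ : Qᴴ * Q = (d : ℂ) • (1 : Matrix (Fin m) (Fin m) ℂ)) :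
    ∑ r : Fin m → Fin n, ‖(Q.submatrix r id).det‖ ^ 2 = m.factorial * d ^ m := by
  have h := cauchy_binet Qᴴ Q
  rw [hQ, Matrix.det_smul, Matrix.det_one, mul_one, Fintype.card_fin] at h
  have h2 : ∀ r : Fin m → Fin n, (Qᴴ.submatrix id r).det * (Q.submatrix r id).det =
      ((‖(Q.submatrix r id).det‖ ^ 2 : ℝ) : ℂ) := by
    intro r
    have : Qᴴ.submatrix id r = (Q.submatrix r id)ᴴ := by
      ext i j
      simp [Matrix.conjTranspose_apply, Matrix.submatrix_apply]
    rw [this, Matrix.det_conjTranspose]
    rw [Complex.ofReal_pow, ← Complex.mul_conj' ]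
    simp [mul_comm]
  simp only [h2] at h
  have h3 : ((∑ r : Fin m → Fin n, ‖(Q.submatrix r id).det‖ ^ 2 : ℝ) : ℂ) =
      ((m.factorial * d ^ m : ℝ) : ℂ) := by
    push_cast
    push_cast at h
    rw [← h]
  exact_mod_cast h3

/-- Lower bound for the largest minor. -/
theorem minor_lower_bound {m n : ℕ} (N : Matrix (Fin n) (Fin n) ℂ) (P : Matrix (Fin n) (Fin m) ℂ)
    (hP : Pᴴ * P = 1) (d : ℝ) (hd : (N * P)ᴴ * (N * P) = (d : ℂ) • (1 : Matrix (Fin m) (Fin m) ℂ))
    (B : ℝ) (hB0 : 0 ≤ B) (hB : ∀ I J : Fin m → Fin n, ‖(N.submatrix I J).det‖ ≤ B) :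
    d ^ m ≤ (B * n.choose m) ^ 2 := by
  classical
  set Q := N * P with hQdef
  set T := Finset.univ.filter fun r : Fin m → Fin n => Function.Injective r with hT
  have hTcard : (T.card : ℝ) = n.descFactorial m := by
    rw [hT, card_injective]
  have hmf : (0 : ℝ) < m.factorial := by exact_mod_cast Nat.factorial_pos m
  have hD : (n.descFactorial m : ℝ) = m.factorial * n.choose m := by
    rw [Nat.descFactorial_eq_factorial_mul_choose]
    push_cast
    ring
  -- squared minors of `P`
  have hPsum := sum_sq_minors P 1 (by simpa using hP)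
  simp only [one_pow, mul_one] at hPsum
  have hPT : ∑ r ∈ T, ‖(P.submatrix r id).det‖ ^ 2 = m.factorial := by
    rw [← hPsum]
    refine Finset.sum_subset (Finset.subset_univ _) fun r _ hr => ?_
    have : ¬ Function.Injective r := by simpa [hT] using hr
    rw [det_submatrix_noninj P this]
    simp
  -- bound for each minor of `Q`
  have hQminor : ∀ I : Fin m → Fin n,
      (m.factorial : ℝ) * ‖(Q.submatrix I id).det‖ ^ 2 ≤ B ^ 2 * n.descFactorial m := by
    intro I
    have hmul : Q.submatrix I id = (N.submatrix I id) * P := by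
      ext i j
      simp [hQdef, Matrix.mul_apply, Matrix.submatrix_apply]
    have hcb := cauchy_binet (N.submatrix I id) P
    rw [← hmul] at hcb
    have h1 : (m.factorial : ℝ) * ‖(Q.submatrix I id).det‖ ≤
        B * ∑ r ∈ T, ‖(P.submatrix r id).det‖ := by
      calc (m.factorial : ℝ) * ‖(Q.submatrix I id).det‖
          = ‖(m.factorial : ℂ) * (Q.submatrix I id).det‖ := by
            rw [norm_mul]; simp
        _ = ‖∑ r : Fin m → Fin n, ((N.submatrix I id).submatrix id r).det *
              (P.submatrix r id).det‖ := by rw [hcb]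
        _ ≤ ∑ r : Fin m → Fin n, ‖((N.submatrix I id).submatrix id r).det *
              (P.submatrix r id).det‖ := norm_sum_le _ _
        _ = ∑ r ∈ T, ‖((N.submatrix I id).submatrix id r).det * (P.submatrix r id).det‖ := by
            symm
            refine Finset.sum_subset (Finset.subset_univ _) fun r _ hr => ?_
            have : ¬ Function.Injective r := by simpa [hT] using hr
            rw [det_submatrix_noninj P this]
            simp
        _ ≤ ∑ r ∈ T, B * ‖(P.submatrix r id).det‖ := by
            refine Finset.sum_le_sum fun r _ => ?_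
            rw [norm_mul]
            refine mul_le_mul_of_nonneg_right ?_ (norm_nonneg _)
            have := hB I r
            simpa [Matrix.submatrix_submatrix] using this
        _ = B * ∑ r ∈ T, ‖(P.submatrix r id).det‖ := by rw [Finset.mul_sum]
    have h2 : (∑ r ∈ T, ‖(P.submatrix r id).det‖) ^ 2 ≤
        T.card * ∑ r ∈ T, ‖(P.submatrix r id).det‖ ^ 2 := sq_sum_le_card_mul_sum_sq
    rw [hPT, hTcard] at h2
    have h3 : ((m.factorial : ℝ) * ‖(Q.submatrix I id).det‖) ^ 2 ≤
        (B * ∑ r ∈ T, ‖(P.submatrix r id).det‖) ^ 2 :=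
      pow_le_pow_left₀ (by positivity) h1 2
    have h4 : ((m.factorial : ℝ) * ‖(Q.submatrix I id).det‖) ^ 2 ≤
        B ^ 2 * (n.descFactorial m * m.factorial) := by
      calc _ ≤ _ := h3
        _ = B ^ 2 * (∑ r ∈ T, ‖(P.submatrix r id).det‖) ^ 2 := by ring
        _ ≤ _ := mul_le_mul_of_nonneg_left h2 (by positivity)
    have h5 : (m.factorial : ℝ) * ((m.factorial : ℝ) * ‖(Q.submatrix I id).det‖ ^ 2) ≤
        (m.factorial : ℝ) * (B ^ 2 * n.descFactorial m) := by
      calc _ = ((m.factorial : ℝ) * ‖(Q.submatrix I id).det‖) ^ 2 := by ring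
        _ ≤ _ := h4
        _ = _ := by ring
    exact le_of_mul_le_mul_left h5 hmf
  -- sum over `I`
  have hQsum := sum_sq_minors Q d hd
  have hQT : ∑ r ∈ T, ‖(Q.submatrix r id).det‖ ^ 2 = m.factorial * d ^ m := by
    rw [← hQsum]
    refine Finset.sum_subset (Finset.subset_univ _) fun r _ hr => ?_
    have : ¬ Function.Injective r := by simpa [hT] using hr
    rw [det_submatrix_noninj Q this]
    simp
  have hfinal : (m.factorial : ℝ) * (m.factorial * d ^ m) ≤
      n.descFactorial m * (B ^ 2 * n.descFactorial m) := by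
    rw [← hQT, Finset.mul_sum]
    calc ∑ r ∈ T, (m.factorial : ℝ) * ‖(Q.submatrix r id).det‖ ^ 2
        ≤ ∑ r ∈ T, (B ^ 2 * n.descFactorial m) := Finset.sum_le_sum fun r _ => hQminor r
      _ = _ := by rw [Finset.sum_const, nsmul_eq_mul, hTcard]
  rw [hD] at hfinal
  have h6 : (m.factorial : ℝ) * (m.factorial * d ^ m) ≤
      (m.factorial : ℝ) * (m.factorial * (B * n.choose m) ^ 2) := by
    calc _ ≤ _ := hfinal
      _ = _ := by ring
  exact le_of_mul_le_mul_left (le_of_mul_le_mul_left h6 hmf) hmf

end Vale.Agent.Lib.P344
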