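import Vale.Agent.Lib.P344.Defs
import Vale.Agent.Lib.P344.MinorBound

open Finset Matrix BigOperators

namespace Vale.Agent.Lib.P344

variable {n : ℕ}

/-- All minors of the rows `B` (any selection of rows and columns) are at most `M` in modulus. -/
def MinorsLE (B : ℕ → Fin n → ℂ) (M : ℝ) : Prop :=
  ∀ (k : ℕ) (c : Fin k → ℕ) (J : Fin k → Fin n),
    ‖(Matrix.of fun a b => B (c a) (J b)).det‖ ≤ M

theorem minors_update_aux {B : ℕ → Fin n → ℂ} {M K : ℝ} (hB : MinorsLE B M) (hM : 0 ≤ M)
    (hK : 1 ≤ K) (p : ℕ) (new : Fin n → ℂ)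
    (hnew : ∀ (k : ℕ) (Y : Matrix (Fin k) (Fin k) ℂ) (a0 : Fin k) (J : Fin k → Fin n),
      (∀ (c : Fin k → ℕ) (u : ℕ), (∀ a, a ≠ a0 → ∀ b, Y a b = B (c a) (J b)) →
        ‖(Y.updateRow a0 (fun b => B u (J b))).det‖ ≤ M) →
      ∀ (c : Fin k → ℕ), (∀ a, a ≠ a0 → ∀ b, Y a b = B (c a) (J b)) →
        ‖(Y.updateRow a0 (fun b => new (J b))).det‖ ≤ K * M) :
    MinorsLE (Function.update B p new) (K * M) := by
  classical
  intro k c J
  by_cases h : ∃ a0, c a0 = p
  · obtain ⟨a0, ha0⟩ := h
    by_cases h2 : ∃ a1, a1 ≠ a0 ∧ c a1 = p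
    · obtain ⟨a1, hne, ha1⟩ := h2
      have : (Matrix.of fun a b => Function.update B p new (c a) (J b)).det = 0 := by
        refine Matrix.det_zero_of_row_eq (i := a1) (j := a0) hne ?_
        ext b
        simp [ha0, ha1]
      rw [this, norm_zero]
      positivity
    · push Not at h2
      set Y : Matrix (Fin k) (Fin k) ℂ := Matrix.of fun a b => B (c a) (J b) with hY
      have hX : (Matrix.of fun a b => Function.update B p new (c a) (J b)) =
          Y.updateRow a0 (fun b => new (J b)) := by
        ext a b
        by_cases hab : a = a0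
        · subst hab
          simp [ha0]
        · have : c a ≠ p := h2 a hab
          simp [Matrix.updateRow_apply, hab, hY, Function.update_of_ne this]
      rw [hX]
      refine hnew k Y a0 J ?_ c (fun a _ b => rfl)
      intro c' u hc'
      have hX2 : Y.updateRow a0 (fun b => B u (J b)) =
          Matrix.of fun a b => B ((Function.update c' a0 u) a) (J b) := by
        ext a b
        by_cases hab : a = a0
        · subst hab
          simp
        · simp [Matrix.updateRow_apply, hab, hc' a hab b]
      rw [hX2]
      exact hB k _ J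
  · push Not at h
    have hX : (Matrix.of fun a b => Function.update B p new (c a) (J b)) =
        Matrix.of fun a b => B (c a) (J b) := by
      ext a b
      simp [Function.update_of_ne (h a)]
    rw [hX]
    calc _ ≤ M := hB k c J
      _ ≤ K * M := le_mul_of_one_le_left hM hK

theorem minors_update_add {B : ℕ → Fin n → ℂ} {M K : ℝ} (hB : MinorsLE B M) (hM : 0 ≤ M)
    (hK : 1 ≤ K) (p u v : ℕ) (a b : ℂ) (hab : ‖a‖ + ‖b‖ ≤ K) :
    MinorsLE (Function.update B p (a • B u + b • B v)) (K * M) := by
  refine minors_update_aux hB hM hK p _ ?_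
  intro k Y a0 J hY c hc
  have h1 : (fun b' => (a • B u + b • B v) (J b')) =
      a • (fun b' => B u (J b')) + b • (fun b' => B v (J b')) := by
    ext b'
    simp
  rw [h1, Matrix.det_updateRow_add, Matrix.det_updateRow_smul, Matrix.det_updateRow_smul]
  have h2 := hY c u hc
  have h3 := hY c v hc
  calc _ ≤ ‖a * (Y.updateRow a0 (fun b' => B u (J b'))).det‖ +
        ‖b * (Y.updateRow a0 (fun b' => B v (J b'))).det‖ := norm_add_le _ _
    _ = ‖a‖ * ‖(Y.updateRow a0 (fun b' => B u (J b'))).det‖ +
        ‖b‖ * ‖(Y.updateRow a0 (fun b' => B v (J b'))).det‖ := by rw [norm_mul, norm_mul]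
    _ ≤ ‖a‖ * M + ‖b‖ * M := by gcongr
    _ = (‖a‖ + ‖b‖) * M := by ring
    _ ≤ K * M := by gcongr

theorem minors_update_zero {B : ℕ → Fin n → ℂ} {M K : ℝ} (hB : MinorsLE B M) (hM : 0 ≤ M)
    (hK : 1 ≤ K) (p : ℕ) : MinorsLE (Function.update B p 0) (K * M) := by
  have h := minors_update_add hB hM hK p 0 0 0 0 (by simpa using le_trans zero_le_one hK)
  simpa using h

/-- Base case: minors of the coordinate rows (and zero rows) are at most one. -/
theorem minors_base : MinorsLE (fun i => if h : i < n then (Pi.single ⟨i, h⟩ 1 : Fin n → ℂ) else 0) 1 := by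
  classical
  intro k c J
  set X : Matrix (Fin k) (Fin k) ℂ := Matrix.of fun a b =>
    (if h : c a < n then (Pi.single ⟨c a, h⟩ 1 : Fin n → ℂ) else 0) (J b) with hX
  -- a zero row
  by_cases h0 : ∃ a, ∀ b, X a b = 0
  · obtain ⟨a, ha⟩ := h0
    have : X.det = 0 := Matrix.det_eq_zero_of_row_eq_zero a ha
    rw [this]
    simp
  push Not at h0
  choose π hπ using h0
  have hentry : ∀ a b, X a b ≠ 0 → (c a = (J b : ℕ)) := by
    intro a b hab
    by_contra hne
    apply hab
    simp only [hX, Matrix.of_apply]
    split_ifs with hlt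
    · rw [Pi.single_apply, if_neg]
      intro heq
      apply hne
      rw [heq]
    · rfl
  have hone : ∀ a b, X a b ≠ 0 → X a b = 1 := by
    intro a b hab
    have hc := hentry a b hab
    simp only [hX, Matrix.of_apply]
    have hlt : c a < n := by rw [hc]; exact (J b).2
    rw [dif_pos hlt, Pi.single_apply, if_pos]
    exact Fin.ext hc.symm
  -- `J` restricted: if `J` is not injective two columns agree
  by_cases hJ : Function.Injective J
  · -- `π` is injective or two rows agree
    by_cases hπi : Function.Injective π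
    · have hbij : Function.Bijective π := Finite.injective_iff_bijective.mp hπi
      set σ : Equiv.Perm (Fin k) := Equiv.ofBijective π hbij with hσ
      have hXperm : X = (1 : Matrix (Fin k) (Fin k) ℂ).submatrix σ id := by
        ext a b
        have hσa : σ a = π a := rfl
        rw [Matrix.submatrix_apply, id_eq, Matrix.one_apply, hσa]
        by_cases hb : π a = b
        · subst hb
          rw [if_pos rfl]
          exact hone a _ (hπ a)
        · rw [if_neg hb]
          by_contra hne
          apply hb
          apply hJ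
          apply Fin.ext
          rw [← hentry a b hne, hentry a (π a) (hπ a)]
      rw [hXperm, Matrix.det_permute, Matrix.det_one, mul_one]
      rcases Int.units_eq_one_or (Equiv.Perm.sign σ) with h | h <;> simp [h]
    · simp only [Function.Injective, not_forall] at hπi
      obtain ⟨a, a', hπeq, hne⟩ := hπi
      have hrow : c a = c a' := by
        rw [hentry a (π a) (hπ a), hentry a' (π a') (hπ a'), hπeq]
      have : X.det = 0 := by
        refine Matrix.det_zero_of_row_eq hne ?_
        ext b
        simp only [hX, Matrix.of_apply, hrow]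
      rw [this]
      simp
  · simp only [Function.Injective, not_forall] at hJ
    obtain ⟨b, b', hJeq, hne⟩ := hJ
    have : X.det = 0 := by
      refine Matrix.det_zero_of_column_eq hne ?_
      intro a
      simp only [hX, Matrix.of_apply, hJeq]
    rw [this]
    simp

end Vale.Agent.Lib.P344
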